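import Vale.Agent.P262.H118.Elem2
import Vale.Agent.P262.H395.StepOne

/-!
# P262, milestone 1 (one class, label dimension = level): common definitions

Processing order is increasing: `v t` is the `t`-th processed vector (`t < T`), `body t` the body
after `t` steps.  States and moves are those of `H118.Elem`: move `m` leads from state `m` to state
`m + 1`; all `d` levels are open at every state.
-/

set_option linter.all false

open MeasureTheory ProbabilityTheory Set
open scoped ENNReal RealInnerProductSpace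
open Vale.Agent.P262.H118 (L Iv st en ONB K1 rotE ON tau)
open Vale.Agent.P262.H395 (fib mix Inv)
open Vale.Agent.P262.H493 (star)

namespace Vale.Agent.P262.M1

variable {E : Type*} [NormedAddCommGroup E] [InnerProductSpace ℝ E] [FiniteDimensional ℝ E]

/-- the bodies in processing order. -/
noncomputable def body (v : ℕ → E) (R : ℝ) : ℕ → Set E
  | 0 => Metric.closedBall 0 R
  | t + 1 => star (body v R t) (v t) ∩ Metric.closedBall 0 R

/-- **caps**: `A i` is a function of the label of level `i` (not truncated: it goes on above `b0`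
at killed labels); `Z i` the killed labels, `Z i = {A l > b0 for some l ≤ i}`. -/
structure Caps (f : ℕ → E) (d : ℕ) (R : ℝ) [MeasurableSpace E] [BorelSpace E] where
  A : ℕ → E → ℝ
  Z : ℕ → Set E
  b0 : ℝ
  kap : ℝ
  A_pos : ∀ i x, 0 < A i x
  A_meas : ∀ i, Measurable (A i)
  A_cyl : ∀ i x, ∀ w ∈ (L f i)ᗮ, A i (x + w) = A i x
  Z_cyl : ∀ i x, ∀ w ∈ (L f i)ᗮ, (x + w ∈ Z i ↔ x ∈ Z i)
  Z_mono : ∀ i, Z i ⊆ Z (i + 1)
  Z_zero : Z 0 = ∅
  Z_closed : ∀ i, IsClosed (Z i)ᶜ
  Z_convex : ∀ i, Convex ℝ (Z i)ᶜ
  b0_pos : 0 < b0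
  kap_pos : 0 < kap
  A_le : ∀ i x, x ∉ Z i → A i x ≤ b0
  lt_A : ∀ i x, x ∈ Z i → ∃ l ≤ i, b0 < A l x
  /-- (A2): caps and killed labels of the next level -/
  child : ∀ i, i < d → ∀ x, x ∉ Z i →
    fib (L f i) (fun y => ENNReal.ofReal (A (i + 1) y) + (Z (i + 1)).indicator 1 y) x
      ≤ ENNReal.ofReal (kap * A i x)
  /-- alive labels lie in the ball -/
  alive : ∀ i, i < d → ∀ x ∈ L f i, x ∉ Z i → ‖x‖ ≤ R
  /-- leaf caps are at least the pure exponential of H59.OnLine with `p = 1/8`, `Lam = 1` -/
  leaf : ∀ x, x ∉ Z (d - 1) →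
    Real.exp (-(1 / 8 * (R ^ 2 - ‖(L f (d - 1)).starProjection x‖ ^ 2) - 1)) ≤ A (d - 1) x

/-- all data of milestone 1 -/
structure Sys (E : Type*) [NormedAddCommGroup E] [InnerProductSpace ℝ E] [FiniteDimensional ℝ E]
    [MeasurableSpace E] [BorelSpace E] where
  v : ℕ → E
  T : ℕ
  N : ℝ
  δ : ℝ
  R : ℝ
  M : ℝ
  f : ℕ → E
  d : ℕ
  hf : ONB f d
  hd : Module.finrank ℝ E = d
  hd2 : 2 ≤ d
  hT : 0 < T
  hv : ∀ t, t < T → ‖v t‖ = δ
  K : K1 v T N δ f d
  el : H118.Elem K
  cp : Caps f d R

variable [MeasurableSpace E] [BorelSpace E]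

namespace Sys

variable (S : Sys E)

/-- time step of the state or move `m` -/
noncomputable def tm (m : ℕ) : ℕ := tau S.el.n m

/-- `m` is a star move -/
def IsStar (m : ℕ) : Prop := m = S.el.n (S.tm m)

/-- `m` is a rotation -/
def IsRot (m : ℕ) : Prop := S.el.n (S.tm m) < m ∧ m + 1 < S.el.n (S.tm m + 1)

/-- `m` is a reopening -/
def IsRe (m : ℕ) : Prop := m + 1 = S.el.n (S.tm m + 1)

open Classical in
/-- number of stars done before state `m` -/
noncomputable def cnt (m : ℕ) : ℕ := if S.IsStar m then S.tm m else S.tm m + 1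

/-- body at state `m`, original coordinates -/
noncomputable def Kb (m : ℕ) : Set E := body S.v S.R (S.cnt m)

/-- body at state `m` in the coordinates of level `i` -/
noncomputable def X (i m : ℕ) : Set E := (S.el.U i m) ⁻¹' S.Kb m

/-- deficit of a label of level `i` at state `m` (plain body) -/
noncomputable def De (i m : ℕ) (x : E) : ℝ≥0∞ := fib (L S.f i) ((S.X i m)ᶜ.indicator 1) x

/-- the same for the intersection of two consecutive states -/
noncomputable def Dc (i m : ℕ) (x : E) : ℝ≥0∞ :=
  fib (L S.f i) ((S.X i m ∩ S.X i (m + 1))ᶜ.indicator 1) x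

/-- change of the body at a label of level `i` between states `m` and `m + 1` -/
noncomputable def Dl (i m : ℕ) (x : E) : ℝ≥0∞ :=
  fib (L S.f i) ((symmDiff (S.X i m) (S.X i (m + 1))).indicator 1) x

/-- start time of the level-`i` block containing the time step of `m` -/
noncomputable def sT (i m : ℕ) : ℕ := st (S.K.nb i) (S.tm m)

/-- end time of this block -/
noncomputable def eT (i m : ℕ) : ℕ := en (S.K.nb i) S.T (S.sT i m)

/-- leaf level -/
def lf : ℕ := S.d - 1

open Classical in
/-- first state of the level-`i` block containing (move) `m`.  At the leaf level every time step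
consists of two blocks: the star move, and the rotations after it. -/
noncomputable def sB (i m : ℕ) : ℕ :=
  if i = S.lf then (if S.IsStar m then m else S.el.n (S.tm m) + 1)
  else S.el.n (S.sT i m)

open Classical in
/-- last state of this block (the moves of the block are `[sB, eB)`) -/
noncomputable def eB (i m : ℕ) : ℕ :=
  if i = S.lf then (if S.IsStar m then m + 1 else S.el.n (S.tm m + 1) - 1)
  else S.el.n (S.eT i m) - 1

/-- the last state of all: after the last star -/
def mT : ℕ := S.el.n S.T - 1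

open Classical in
/-- cap with the value one at killed labels -/
noncomputable def a (i : ℕ) (x : E) : ℝ≥0∞ :=
  if x ∈ S.cp.Z i then 1 else ENNReal.ofReal (S.cp.A i x)

/-- **the frozen rule**: labels counted during the level-`i` block containing move `m`. -/
def om (i m : ℕ) : Set E :=
  {x | x ∉ S.cp.Z i ∧ (ENNReal.ofReal (S.cp.A i x) ≤ S.De i (S.eB i m) x ∨
    ∃ k, S.sB i m ≤ k ∧ k < S.eB i m ∧ ENNReal.ofReal (S.M * S.cp.A i x) ≤ S.Dc i k x)}

/-- counted at all levels `≤ r` -/
def OM (r m : ℕ) : Set E := {x | ∀ i, i ≤ r → x ∈ S.om i m}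

/-- body minus killed labels, deepest coordinates -/
noncomputable def Kq (m : ℕ) : Set E := S.X S.lf m \ S.cp.Z S.lf

/-- alive mass `q#` at a label of level `l` -/
noncomputable def q (l m : ℕ) (x : E) : ℝ≥0∞ := fib (L S.f l) ((S.Kq m).indicator 1) x

/-- the indicator of a set as a weight -/
noncomputable def iw (s : Set E) : E → ℝ≥0∞ := s.indicator 1

/-- counted gain of the star move `m` -/
noncomputable def gain (m : ℕ) : ℝ≥0∞ :=
  ∫⁻ x, iw (S.OM S.lf m) x * iw (S.X S.lf (m + 1) \ S.X S.lf m) x ∂stdGaussian E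

/-- counted loss of the star move `m` -/
noncomputable def loss (m : ℕ) : ℝ≥0∞ :=
  ∫⁻ x, iw (S.OM S.lf m) x * iw (S.X S.lf m \ S.X S.lf (m + 1)) x ∂stdGaussian E

/-- the unit: `E[Om_{≤ l} A_l q#_l]` at state `m` (weights of the block containing move `m'`) -/
noncomputable def Un (l m' m : ℕ) : ℝ≥0∞ :=
  ∫⁻ x, iw (S.OM l m') x * ENNReal.ofReal (S.cp.A l x) * iw (S.Kq m) x ∂stdGaussian E

/-- throughput price of a rotation at a label of level `i` (cap one at killed labels) -/
noncomputable def Xr (i m : ℕ) (x : E) : ℝ≥0∞ := S.a i x * (S.Dl i m x / S.Dc i m x)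

/-- root health of state `m`: the alive body has mass at least `4/5` -/
def Healthy (m : ℕ) : Prop := ENNReal.ofReal (4 / 5) ≤ stdGaussian E (S.Kq m)

end Sys

end Vale.Agent.P262.M1
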