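import Vale.Agent.P262.M1.Defs

/-!
# P262, milestone 1: the blocks as propositions about a system `S : Sys E`

All integrals are over the standard Gaussian law in the coordinates of the deepest level at the
state in question.
-/

set_option linter.all false

open MeasureTheory ProbabilityTheory Set
open scoped ENNReal RealInnerProductSpace
open Vale.Agent.P262.H118 (L Iv st en ONB K1 rotE ON)
open Vale.Agent.P262.H395 (fib mix Inv)
open Vale.Agent.P262.H493 (star)

namespace Vale.Agent.P262.M1.Sys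

variable {E : Type*} [NormedAddCommGroup E] [InnerProductSpace ℝ E] [FiniteDimensional ℝ E]
  [MeasurableSpace E] [BorelSpace E] (S : Sys E)

/-- counted at the levels `l < i ≤ r` (block containing move `m`) -/
def inn (l r m : ℕ) : Set E := {x | ∀ i, l < i → i ≤ r → x ∈ S.om i m}

open Classical in
/-- last level surviving the reopening `m` -/
noncomputable def sv (m : ℕ) : ℕ := Nat.findGreatest (fun i => S.tm m + 1 ∉ S.K.nw i) S.lf

/-- `m'` and `m` are states of the same level-`l` block -/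
def Same (l m' m : ℕ) : Prop := S.sB l m' ≤ m ∧ m ≤ S.eB l m'

/-- **(G1)** counted loss at most `1/8` counted gain. -/
def G1 : Prop := ∀ m, m < S.mT → S.IsStar m → S.Healthy m → S.loss m ≤ S.gain m / 8

/-- **(R1)** labels stopped during a block are healthy at every state of the block. -/
def R1 : Prop := ∀ l m' m x, l < S.d → m' ≤ S.mT → S.Same l m' m → x ∉ S.cp.Z l → x ∉ S.om l m' →
  ENNReal.ofReal (4 / 5) ≤ S.q l m x

/-- **(G2)** far lemma with stopped labels up to level `l`; `m'` fixes the blocks of the weights. -/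
def G2 (κ : ℝ) : Prop := ∀ l i m' m, l ≤ i → i < S.d → m' ≤ S.mT → m ≤ S.mT → S.Same l m' m →
  S.Healthy m →
  ∫⁻ x, iw (S.OM l m') x * ENNReal.ofReal (S.cp.A i x) * iw (S.X S.lf m) x ∂stdGaussian E ≤
    ENNReal.ofReal (κ ^ (i - l)) *
      ∫⁻ x, iw (S.OM l m') x * ENNReal.ofReal (S.cp.A l x) * iw (S.X S.lf m) x ∂stdGaussian E

/-- **(G2')** the same for `a i` (value one at killed labels), against the alive unit, with one
factor `κ` only (labels killed at a level `≤ i` have the value one at all deeper levels). -/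
def G2' (κ : ℝ) : Prop := ∀ l i m' m, l < i → i < S.d → m' ≤ S.mT → m ≤ S.mT → S.Same l m' m →
  S.Healthy m →
  ∫⁻ x, iw (S.OM l m') x * S.a i x * iw (S.X S.lf m) x ∂stdGaussian E ≤
    ENNReal.ofReal κ * S.Un l m' m

/-- **(G3)** throughput of a rotation with index `j = jj m`, level `i > j`. -/
def G3 (c : ℝ) : Prop := ∀ m i, m < S.mT → S.IsRot m → S.el.jj m < i → i < S.d →
  S.Healthy m → S.Healthy (m + 1) →
  ∫⁻ x, iw (S.OM (S.el.jj m) m) x * S.Xr i m x ∂stdGaussian E ≤
    ENNReal.ofReal (c * S.el.ph m) * (S.Un (S.el.jj m) m m + S.Un (S.el.jj m) m (m + 1))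

/-- charge of move `m` seen by the field of level `l`, at a label `x` of level `l`
(`cs` = constant of the stars, `c` = constant of everything else). -/
noncomputable def Gp (cs c : ℝ) (l m : ℕ) (x : E) : ℝ≥0∞ :=
  open Classical in
  if S.IsStar m then
    ENNReal.ofReal cs * fib (L S.f l)
      (iw (S.inn l S.lf m ∩ symmDiff (S.X S.lf m) (S.X S.lf (m + 1)))) x
  else if S.IsRe m then
    ENNReal.ofReal c * ∑ i ∈ Finset.Ioc (S.sv m) S.lf,
      (fib (L S.f l) (fun y => iw (S.inn l (S.sv m) m) y * S.a i y * iw (S.X S.lf m) y) x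
        + fib (L S.f l) (fun y => iw (S.inn l (S.sv m) (m + 1)) y * S.a i y *
            iw (S.X S.lf (m + 1)) y) x)
  else if S.IsRot m ∧ l ≤ S.el.jj m then
    ENNReal.ofReal c * ∑ i ∈ Finset.Ioc (S.el.jj m) S.lf,
      fib (L S.f l) (fun y => iw (S.inn l (S.el.jj m) m) y * (S.Xr i m y
        + ENNReal.ofReal (S.el.ph m) * S.a i y *
          (iw (S.X S.lf m) y + iw (S.X S.lf (m + 1)) y))) x
  else 0

/-- outer rotations at a label of level `l` -/
noncomputable def Qp (l m : ℕ) (x : E) : ℝ≥0∞ :=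
  open Classical in if S.IsRot m ∧ S.el.jj m < l then S.Xr l m x else 0

/-- the level-`l` block containing move `m` is complete (not slow); `l < lf` -/
def Cpl (l m : ℕ) : Prop := ¬ H118.Sl S.v S.N S.f (S.K.S l) l (S.sT l m) (S.eT l m)

/-- **(LBL)** labelwise block lemma, complete blocks, levels above the leaf. -/
def LBL (cL cs c : ℝ) : Prop := ∀ l m x, l < S.lf → m < S.mT → (∀ k ≤ S.mT, S.Healthy k) →
  x ∈ S.om l m → S.Cpl l m → ∀ k, S.Same l m k →
  ENNReal.ofReal (cL * S.cp.A l x) * S.q l k x ≤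
    ∑ m' ∈ Finset.Ico (S.sB l m) (S.eB l m), (S.Gp cs c l m' x + S.Qp l m' x)

/-- **(LBI)** labelwise block lemma, any block. -/
def LBI (cs c : ℝ) : Prop := ∀ l m x, l < S.lf → m < S.mT → (∀ k ≤ S.mT, S.Healthy k) →
  x ∈ S.om l m → ∀ k, S.Same l m k →
  ENNReal.ofReal (S.cp.A l x) * S.q l k x ≤
    2 * (ENNReal.ofReal (S.cp.A l x) * S.q l (S.sB l m) x) +
    ENNReal.ofReal c *
    ∑ m' ∈ Finset.Ico (S.sB l m) (S.eB l m), (S.Gp cs c l m' x + S.Qp l m' x)

/-- price of the end of a level-`l` block (`(A - D_end)_+` at counted labels), block of move `m` -/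
noncomputable def PZ (l m : ℕ) : ℝ≥0∞ :=
  ∫⁻ x, iw (S.OM l m) x * (ENNReal.ofReal (S.cp.A l x) - S.De l (S.eB l m) x) ∂stdGaussian E

open Classical in
/-- first states of the level-`l` blocks -/
noncomputable def bl (l : ℕ) : Finset ℕ := (Finset.range S.mT).filter (fun m => S.sB l m = m)

open Classical in
/-- value price of the elementary move `m` in the telescoping -/
noncomputable def Vp (m : ℕ) : ℝ≥0∞ :=
  if S.IsRe m then
    ∑ i ∈ Finset.Ioc (S.sv m) S.lf,
      ∫⁻ x, iw (S.OM (i - 1) (m + 1)) x * S.a i x * iw (S.X S.lf (m + 1)) x ∂stdGaussian E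
  else if S.IsRot m then
    ENNReal.ofReal (4 * S.M) * ∑ i ∈ Finset.Ioc (S.el.jj m) S.lf,
      ∫⁻ x, iw (S.OM (S.el.jj m) m) x * S.Xr i m x ∂stdGaussian E
  else 0

/-- **(T)** telescoping of the root potential. -/
def TEL : Prop :=
  S.De 0 S.mT 0 + ∑ m ∈ (Finset.range S.T).image S.el.n, S.gain m ≤
    max (S.a 0 0) (S.De 0 0 0) +
    ∑ m ∈ (Finset.range S.T).image S.el.n, S.loss m +
    ∑ i ∈ Finset.Ioc 0 S.lf, ∫⁻ x, iw (S.OM (i - 1) 0) x * S.a i x * iw (S.X S.lf 0) x
      ∂stdGaussian E +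
    ∑ m ∈ Finset.range S.mT, S.Vp m +
    ∑ l ∈ Finset.range S.d, ∑ m ∈ S.bl l, S.PZ l m

/-- **(PZ)** the end price: `F` fell from `≥ M A` to `< A` inside the block. -/
def PZL (ε c : ℝ) : Prop := ∀ l m, l < S.d → m < S.mT → (∀ k ≤ S.mT, S.Healthy k) →
  S.PZ l m ≤ ∑ m' ∈ Finset.Ico (S.sB l m) (S.eB l m),
    ∫⁻ x, iw (S.OM l m) x * (S.Gp ε c l m' x + ENNReal.ofReal c * S.Qp l m' x)
      ∂stdGaussian E

open Classical in
/-- **unit of a block**: `E[Om_{≤ l} A_l sup q#_l]` -/
noncomputable def Yb (l m : ℕ) : ℝ≥0∞ :=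
  ∫⁻ x, iw (S.OM l m) x * ENNReal.ofReal (S.cp.A l x) *
    (Finset.Icc (S.sB l m) (S.eB l m)).sup (fun k => S.q l k x) ∂stdGaussian E

/-- total unit, levels above the leaf -/
noncomputable def Y : ℝ≥0∞ := ∑ l ∈ Finset.range S.lf, ∑ m ∈ S.bl l, S.Yb l m

/-- **(SUM)** the conclusion of the accounting. -/
def ACC : Prop := S.De 0 S.mT 0 ≤ 3 * S.a 0 0

end Vale.Agent.P262.M1.Sys
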