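import Vale.Agent.P262.H118.SysGeo
import Vale.Agent.P262.H136.Ledger
import Vale.Agent.P262.H174.Soft2
import Vale.Agent.P262.H359.Top

/-!
# P262, milestone 1: health induction, existence of the system, top theorem
-/

set_option linter.all false

open MeasureTheory ProbabilityTheory Set
open scoped ENNReal RealInnerProductSpace
open Vale.Agent.P262.H118 (L Iv st en ONB K1 rotE ON tau)
open Vale.Agent.P262.H395 (fib mix Inv)
open Vale.Agent.P262.H493 (star)

namespace Vale.Agent.P262.M1

variable {E : Type*} [NormedAddCommGroup E] [InnerProductSpace ℝ E] [FiniteDimensional ℝ E]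

/-! ### bodies -/

omit [FiniteDimensional ℝ E] in
lemma body_congr {v v' : ℕ → E} {R : ℝ} {T : ℕ} (h : ∀ t, t < T → v t = v' t) :
    body v R T = body v' R T := by
  induction T with
  | zero => rfl
  | succ T ih =>
    rw [body, body, ih fun t ht => h t (by omega), h T (by omega)]

omit [FiniteDimensional ℝ E] in
/-- the bodies of H703 in processing order. -/
lemma body_eq_bodies (R : ℝ) (l : List E) :
    body (fun t => l.reverse.getD t 0) R l.length = H703.bodies (Metric.closedBall 0 R) l := by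
  induction l with
  | nil => rfl
  | cons a l ih =>
    rw [List.length_cons, body, H703.bodies_cons, ← ih]
    congr 1
    congr 1
    · apply body_congr
      intro t ht
      rw [List.reverse_cons]
      rw [List.getD_append _ _ _ _ (by rw [List.length_reverse]; exact ht)]
    · rw [List.reverse_cons]
      rw [List.getD_append_right _ _ _ _ (by rw [List.length_reverse])]
      simp

variable [MeasurableSpace E] [BorelSpace E]

/-! ### one star at the root -/

lemma shift_compl {K : Set E} (hK : MeasurableSet K) (w : E) :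
    (stdGaussian E).real {x | x + w ∉ K} ≤ (stdGaussian E).real Kᶜ + 2 * ‖w‖ := by
  have h1 : (stdGaussian E).real {x | x + w ∉ K}
      = ∫ g, Kᶜ.indicator (fun _ => (1 : ℝ)) (g + w) ∂(stdGaussian E) := by
    have hm : MeasurableSet {x : E | x + w ∉ K} :=
      (hK.compl.preimage (by fun_prop : Measurable fun x : E => x + w))
    rw [← integral_indicator_one hm]
    congr 1
  have h2 : (stdGaussian E).real Kᶜ = ∫ g, Kᶜ.indicator (fun _ => (1 : ℝ)) g ∂(stdGaussian E) := by
    rw [← integral_indicator_one hK.compl]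
    congr 1
  have hme : Measurable (Kᶜ.indicator (fun _ => (1 : ℝ)) : E → ℝ) :=
    measurable_const.indicator hK.compl
  rw [h1, h2, H941.integral_shift' hme]
  have hb : ∀ x : E, |Kᶜ.indicator (fun _ => (1 : ℝ)) x| ≤ 1 := by
    intro x
    by_cases hx : x ∈ Kᶜ
    · rw [indicator_of_mem hx]; simp
    · rw [indicator_of_notMem hx]; simp
  have iX : Integrable (fun g : E => Real.exp (⟪w, g⟫ - ‖w‖ ^ 2 / 2)) (stdGaussian E) :=
    H174.integrable_exp_lin w _
  have i1 : Integrable (Kᶜ.indicator (fun _ => (1 : ℝ)) : E → ℝ) (stdGaussian E) :=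
    (integrable_const (1 : ℝ)).indicator hK.compl
  have i2 : Integrable (fun g : E => Kᶜ.indicator (fun _ => (1 : ℝ)) g *
      Real.exp (⟪w, g⟫ - ‖w‖ ^ 2 / 2)) (stdGaussian E) :=
    iX.bdd_mul hme.aestronglyMeasurable (c := 1) (Filter.Eventually.of_forall hb)
  have h3 : ∫ g, Kᶜ.indicator (fun _ => (1 : ℝ)) g * Real.exp (⟪w, g⟫ - ‖w‖ ^ 2 / 2)
        ∂(stdGaussian E) - ∫ g, Kᶜ.indicator (fun _ => (1 : ℝ)) g ∂(stdGaussian E)
      ≤ ∫ g, |Real.exp (⟪w, g⟫ - ‖w‖ ^ 2 / 2) - 1| ∂(stdGaussian E) := by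
    rw [← integral_sub i2 i1]
    refine integral_mono (i2.sub i1) (iX.sub (integrable_const _)).abs fun g => ?_
    show Kᶜ.indicator (fun _ => (1 : ℝ)) g * Real.exp (⟪w, g⟫ - ‖w‖ ^ 2 / 2)
      - Kᶜ.indicator (fun _ => (1 : ℝ)) g ≤ |Real.exp (⟪w, g⟫ - ‖w‖ ^ 2 / 2) - 1|
    have h4 : Kᶜ.indicator (fun _ => (1 : ℝ)) g * Real.exp (⟪w, g⟫ - ‖w‖ ^ 2 / 2)
      - Kᶜ.indicator (fun _ => (1 : ℝ)) g
      = Kᶜ.indicator (fun _ => (1 : ℝ)) g * (Real.exp (⟪w, g⟫ - ‖w‖ ^ 2 / 2) - 1) := by ring
    rw [h4]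
    refine (le_abs_self _).trans ?_
    rw [abs_mul]
    exact mul_le_of_le_one_left (abs_nonneg _) (hb g)
  have h5 := H174.tv_shift w
  linarith

lemma star_compl_subset {K : Set E} (v : E) :
    (star K v)ᶜ ⊆ Kᶜ ∪ ({x | x + v ∉ K} ∪ {x | x + (-v) ∉ K}) := by
  intro x hx
  by_contra hcon
  simp only [mem_union, mem_compl_iff, mem_setOf_eq, not_or, not_not] at hcon
  exact hx (H359.mem_star_of (by rw [sub_eq_add_neg]; exact hcon.2.2) hcon.2.1)

lemma star_deficit {K : Set E} (hK : MeasurableSet K) (v : E) :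
    (stdGaussian E).real (star K v)ᶜ ≤ 3 * (stdGaussian E).real Kᶜ + 4 * ‖v‖ := by
  have h1 := measureReal_mono (μ := stdGaussian E) (star_compl_subset (K := K) v)
    (measure_ne_top _ _)
  have h2 := shift_compl hK v
  have h3 := shift_compl hK (-v)
  rw [norm_neg] at h3
  have h4 := measureReal_union_le (μ := stdGaussian E) Kᶜ ({x | x + v ∉ K} ∪ {x | x + (-v) ∉ K})
  have h5 := measureReal_union_le (μ := stdGaussian E) {x | x + v ∉ K} {x | x + (-v) ∉ K}
  linarith

lemma body_succ_deficit (v : ℕ → E) (R : ℝ) (T : ℕ) :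
    (stdGaussian E).real (body v R (T + 1))ᶜ ≤
      3 * (stdGaussian E).real (body v R T)ᶜ + 4 * ‖v T‖
        + (stdGaussian E).real (Metric.closedBall (0 : E) R)ᶜ := by
  have h1 := star_deficit (measurableSet_body v R T) (v T)
  have h2 : (body v R (T + 1))ᶜ = (star (body v R T) (v T))ᶜ ∪ (Metric.closedBall (0 : E) R)ᶜ := by
    rw [body, compl_inter]
  rw [h2]
  have h3 := measureReal_union_le (μ := stdGaussian E) (star (body v R T) (v T))ᶜ
    (Metric.closedBall (0 : E) R)ᶜ
  linarith

/-! ### killed mass -/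

lemma L_le_of_le (f : ℕ → E) {i j : ℕ} (h : i ≤ j) : L f i ≤ L f j := H118.L_mono f h

namespace Caps

variable {f : ℕ → E} {d : ℕ} {R : ℝ} (cp : Caps f d R)

lemma Z_le {i j : ℕ} (h : i ≤ j) : cp.Z i ⊆ cp.Z j := by
  induction j, h using Nat.le_induction with
  | base => exact subset_rfl
  | succ j _ ih => exact ih.trans (cp.Z_mono j)

lemma Z_meas (i : ℕ) : MeasurableSet (cp.Z i) := by
  simpa using (cp.Z_closed i).measurableSet.compl

lemma inv_Z (i : ℕ) : Inv (L f i) ((cp.Z i).indicator (1 : E → ℝ≥0∞)) := by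
  intro x w hw
  by_cases h : x ∈ cp.Z i
  · rw [indicator_of_mem h, indicator_of_mem ((cp.Z_cyl i x w hw).2 h)]; rfl
  · rw [indicator_of_notMem h, indicator_of_notMem fun h' => h ((cp.Z_cyl i x w hw).1 h')]

lemma inv_Zc (i : ℕ) : Inv (L f i) ((cp.Z i)ᶜ.indicator (1 : E → ℝ≥0∞)) := by
  intro x w hw
  by_cases h : x ∈ cp.Z i
  · rw [indicator_of_notMem (s := (cp.Z i)ᶜ) (fun h' => h' ((cp.Z_cyl i x w hw).2 h)),
      indicator_of_notMem (s := (cp.Z i)ᶜ) (fun h' => h' h)]
  · have h1 : x ∈ (cp.Z i)ᶜ := h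
    have h2 : x + w ∈ (cp.Z i)ᶜ := fun h' => h ((cp.Z_cyl i x w hw).1 h')
    rw [indicator_of_mem h1, indicator_of_mem h2]; rfl

lemma inv_A (i : ℕ) : Inv (L f i) (fun x => ENNReal.ofReal (cp.A i x)) := by
  intro x w hw
  simp only [cp.A_cyl i x w hw]

/-- mass of the killed labels and mean cap of the alive labels, seen from an alive label. -/
lemma killed_aux (l : ℕ) {x : E} (hx : x ∉ cp.Z l) (j : ℕ) (hj : l + j ≤ d) :
    fib (L f l) (fun y => (cp.Z (l + j))ᶜ.indicator 1 y * ENNReal.ofReal (cp.A (l + j) y)) x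
        ≤ ENNReal.ofReal (cp.kap ^ j * cp.A l x) ∧
      fib (L f l) ((cp.Z (l + j)).indicator 1) x
        ≤ ENNReal.ofReal (∑ k ∈ Finset.range j, cp.kap ^ (k + 1) * cp.A l x) := by
  have hk := cp.kap_pos
  have hA := cp.A_pos l x
  induction j with
  | zero =>
    constructor
    · rw [Nat.add_zero, pow_zero, one_mul]
      refine (H395.fib_mono (g := fun y => ENNReal.ofReal (cp.A l y)) (fun y => ?_) x).trans ?_
      · refine mul_le_of_le_one_left' ?_
        by_cases h : y ∈ (cp.Z l)ᶜ
        · rw [indicator_of_mem h]; rfl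
        · rw [indicator_of_notMem h]; exact zero_le
      · rw [H395.fib_eq_self (cp.inv_A l)]
    · rw [Nat.add_zero, H395.fib_eq_self (cp.inv_Z l), indicator_of_notMem hx]
      exact zero_le
  | succ j ih =>
    obtain ⟨ih1, ih2⟩ := ih (by omega)
    -- the child inequality averaged
    have hLL : L f l ≤ L f (l + j) := L_le_of_le f (by omega)
    set g : E → ℝ≥0∞ := fun y => ENNReal.ofReal (cp.A (l + j + 1) y) +
      (cp.Z (l + j + 1)).indicator 1 y with hg
    have hgm : Measurable g := (cp.A_meas _).ennreal_ofReal.add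
      (measurable_one.indicator (cp.Z_meas _))
    have hzm : Measurable ((cp.Z (l + j))ᶜ.indicator (1 : E → ℝ≥0∞)) :=
      measurable_one.indicator (cp.Z_meas _).compl
    have key : fib (L f l) (fun y => (cp.Z (l + j))ᶜ.indicator 1 y * g y) x ≤
        ENNReal.ofReal (cp.kap ^ (j + 1) * cp.A l x) := by
      rw [← H395.fib_tower hLL (f := fun y => (cp.Z (l + j))ᶜ.indicator 1 y * g y)
        (hzm.mul hgm)]
      have h1 : ∀ y, fib (L f (l + j)) (fun z => (cp.Z (l + j))ᶜ.indicator 1 z * g z) y ≤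
          ENNReal.ofReal cp.kap * ((cp.Z (l + j))ᶜ.indicator 1 y *
            ENNReal.ofReal (cp.A (l + j) y)) := by
        intro y
        rw [H395.fib_mul (cp.inv_Zc (l + j)) hgm]
        by_cases h : y ∈ (cp.Z (l + j))ᶜ
        · rw [indicator_of_mem h]
          simp only [Pi.one_apply, one_mul]
          rw [← ENNReal.ofReal_mul hk.le]
          exact cp.child (l + j) (by omega) y h
        · rw [indicator_of_notMem h]; simp
      refine (H395.fib_mono h1 x).trans ?_
      have h2 : fib (L f l) (fun y => ENNReal.ofReal cp.kap * ((cp.Z (l + j))ᶜ.indicator 1 y *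
            ENNReal.ofReal (cp.A (l + j) y))) x = ENNReal.ofReal cp.kap *
            fib (L f l) (fun y => (cp.Z (l + j))ᶜ.indicator 1 y *
            ENNReal.ofReal (cp.A (l + j) y)) x :=
        H395.fib_mul (H395.inv_const _ _) (hzm.mul (cp.A_meas _).ennreal_ofReal) x
      rw [h2]
      refine (mul_le_mul_right ih1 _).trans (le_of_eq ?_)
      rw [← ENNReal.ofReal_mul hk.le]
      congr 1; ring
    constructor
    · refine (H395.fib_mono (fun y => ?_) x).trans key
      rw [← Nat.add_assoc]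
      refine mul_le_mul' ?_ (by rw [hg]; exact le_self_add)
      by_cases h : y ∈ (cp.Z (l + j + 1))ᶜ
      · have h' : y ∈ (cp.Z (l + j))ᶜ := fun hh => h (cp.Z_mono _ hh)
        rw [indicator_of_mem h, indicator_of_mem h']
      · rw [indicator_of_notMem h]; exact zero_le
    · have h3 : ∀ y, (cp.Z (l + (j + 1))).indicator (1 : E → ℝ≥0∞) y ≤
          (cp.Z (l + j)).indicator 1 y + (cp.Z (l + j))ᶜ.indicator 1 y * g y := by
        intro y
        rw [← Nat.add_assoc]
        by_cases h : y ∈ cp.Z (l + j)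
        · rw [indicator_of_mem h, indicator_of_mem (cp.Z_mono _ h)]
          exact le_self_add
        · have h' : y ∈ (cp.Z (l + j))ᶜ := h
          rw [indicator_of_notMem h, indicator_of_mem h']
          simp only [Pi.one_apply, one_mul, zero_add]
          rw [hg]
          exact le_add_self
      refine (H395.fib_mono h3 x).trans ?_
      rw [H395.fib_add (measurable_one.indicator (cp.Z_meas _))]
      rw [Finset.sum_range_succ, ENNReal.ofReal_add (Finset.sum_nonneg fun k _ => by positivity)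
        (by positivity)]
      exact add_le_add ih2 key

/-- killed mass below an alive label. -/
lemma killed (l i : ℕ) (hli : l ≤ i) (hid : i ≤ d) (hk : cp.kap ≤ 1 / 2) {x : E}
    (hx : x ∉ cp.Z l) :
    fib (L f l) ((cp.Z i).indicator 1) x ≤ ENNReal.ofReal (2 * cp.kap * cp.A l x) := by
  obtain ⟨j, rfl⟩ := Nat.exists_eq_add_of_le hli
  refine (cp.killed_aux l hx j hid).2.trans (ENNReal.ofReal_le_ofReal ?_)
  rw [← Finset.sum_mul]
  refine mul_le_mul_of_nonneg_right ?_ (cp.A_pos l x).le
  have hk0 := cp.kap_pos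
  have h1 : ∀ n : ℕ, ∑ k ∈ Finset.range n, cp.kap ^ (k + 1) ≤ 2 * cp.kap := by
    intro n
    have h2 : ∑ k ∈ Finset.range n, cp.kap ^ (k + 1) = cp.kap * ∑ k ∈ Finset.range n, cp.kap ^ k := by
      rw [Finset.mul_sum]
      exact Finset.sum_congr rfl fun k _ => by ring
    have h3 : ∀ n : ℕ, ∑ k ∈ Finset.range n, cp.kap ^ k ≤ 2 - 2 * cp.kap ^ n := by
      intro n
      induction n with
      | zero => simp
      | succ n ih =>
        rw [Finset.sum_range_succ]
        have : cp.kap ^ (n + 1) ≤ 1 / 2 * cp.kap ^ n := by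
          rw [pow_succ, mul_comm]
          exact mul_le_mul_of_nonneg_right hk (by positivity)
        have h4 : 0 ≤ cp.kap ^ (n+1) := by positivity
        linarith [pow_pos hk0 n]
    rw [h2]
    have := h3 n
    have h5 := pow_pos hk0 n
    nlinarith
  exact h1 j

end Caps

end Vale.Agent.P262.M1
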