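import Vale.Agent.P262.M1.Param
import Vale.Agent.P262.H502.G2b
import Vale.Agent.P262.H654.ReGp
import Vale.Agent.P262.H706.G3
import Vale.Agent.P262.H59.G1

/-!
# P262, milestone 1: the numerical hypotheses of the blocks (helper924)

Constants: `CM = 1024`, `cb = cA = 10^(-16)`, `cN = 10^(-6)`, `δ = 1/19200`.
-/

set_option linter.all false

open MeasureTheory ProbabilityTheory Set
open scoped ENNReal RealInnerProductSpace
open Vale.Agent.P262.H118 (L Iv st en ONB K1 rotE ON tau)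
open Vale.Agent.P262.H395 (fib mix Inv)
open Vale.Agent.P262.H493 (star)
open Vale.Agent.P262.H924

namespace Vale.Agent.P262.M1

/-- `Small` with the numerical values of the constants -/
def SmallN (K : ℝ) (n d : ℕ) (h A0 k0 b0 R M N : ℝ) : Prop :=
  Small 1024 (1 / 10 ^ 16) (1 / 10 ^ 16) (1 / 10 ^ 6) K n d h A0 k0 b0 R M N

namespace SmallN

variable {K : ℝ} {n d : ℕ} {h A0 k0 b0 R M N : ℝ}

/-- `Q = (1+R)(d+1)` -/
noncomputable def Q (R : ℝ) (d : ℕ) : ℝ := (1 + R) * ((d : ℝ) + 1)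

section

variable (S : SmallN K n d h A0 k0 b0 R M N)

include S

lemma hM : M = 1024 * ((d : ℝ) + 1) := S.eM

lemma M_ge : 1024 ≤ M := by
  rw [S.hM]
  have : (0 : ℝ) ≤ d := Nat.cast_nonneg d
  linarith

lemma hR2 : 2 ≤ R := two_le_R S.par

lemma hR0 : 0 ≤ R := S.par.hR

lemma hb0 : b0 = 1 / 10 ^ 16 / ((d : ℝ) + 1) ^ 2 := S.eb

lemma b0_pos : 0 < b0 := S.par.hb

lemma k0_pos : 0 < k0 := S.par.hk

lemma Q_ge : (d : ℝ) + 1 ≤ Q R d := by
  unfold Q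
  have h1 := S.hR0
  have : (0 : ℝ) ≤ d := Nat.cast_nonneg d
  nlinarith

lemma Q_ge1 : 1 + R ≤ Q R d := by
  unfold Q
  have h1 := S.hR0
  have : (0 : ℝ) ≤ d := Nat.cast_nonneg d
  nlinarith

lemma one_le_Q : 1 ≤ Q R d := by
  have := S.Q_ge1
  have := S.hR0
  linarith

lemma d_le_Q : (d : ℝ) ≤ Q R d := by
  have := S.Q_ge
  linarith

lemma R_le_Q : R ≤ Q R d := by
  have := S.Q_ge1
  linarith

/-- **the master inequality** -/
lemma small {A : ℝ} {m : ℕ} (hA0 : 0 ≤ A) (hA : A ≤ K) (hm : m ≤ n) : A * Q R d ^ m * k0 ≤ 1 := by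
  refine le_trans ?_ S.master
  refine mul_le_mul_of_nonneg_right ?_ S.k0_pos.le
  have h1 := S.one_le_Q
  exact mul_le_mul hA (pow_le_pow_right₀ h1 hm) (by positivity) (hA0.trans hA)

/-- `(M+1) b0 ≤ 2 · 10^(-13)/(d+1)` -/
lemma c0_le : (M + 1) * b0 ≤ 2 / 10 ^ 13 / ((d : ℝ) + 1) := by
  rw [S.hM, S.hb0]
  have hd : (0 : ℝ) ≤ d := Nat.cast_nonneg d
  rw [mul_div_assoc', div_le_div_iff₀ (by positivity) (by positivity)]
  nlinarith [mul_nonneg hd hd, mul_nonneg hd (mul_nonneg hd hd)]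

lemma c0_nonneg : 0 ≤ (M + 1) * b0 := by
  have h1 := S.M_ge
  have h2 := S.b0_pos
  positivity

lemma d_c0 : ((d : ℝ) + 1) * ((M + 1) * b0) ≤ 2 / 10 ^ 13 := by
  have h1 := S.c0_le
  have hd : (0 : ℝ) ≤ d := Nat.cast_nonneg d
  rw [le_div_iff₀ (by positivity)] at h1
  linarith

lemma c0_16 : (M + 1) * b0 ≤ 1 / 16 := by
  have h1 := S.d_c0
  have h2 := S.c0_nonneg
  have hd : (0 : ℝ) ≤ d := Nat.cast_nonneg d
  nlinarith

lemma c0_16d : 16 * (d : ℝ) * ((M + 1) * b0) ≤ 1 := by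
  have h1 := S.d_c0
  have h2 := S.c0_nonneg
  have hd : (0 : ℝ) ≤ d := Nat.cast_nonneg d
  nlinarith

lemma c0_4d : 4 * (d : ℝ) * ((M + 1) * b0) ≤ 1 := by
  have h1 := S.d_c0
  have h2 := S.c0_nonneg
  have hd : (0 : ℝ) ≤ d := Nat.cast_nonneg d
  nlinarith

/-- hidden mass -/
lemma hidden : 2 * (d : ℝ) * ((M + 1) * b0) ≤ 1 / 10 ^ 11 := by
  have h1 := S.d_c0
  have h2 := S.c0_nonneg
  have hd : (0 : ℝ) ≤ d := Nat.cast_nonneg d
  nlinarith

lemma sg_le : H654.sg ((M + 1) * b0) ^ d ≤ 2 :=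
  H654.sg_pow_le S.c0_nonneg S.c0_16d le_rfl S.c0_16

lemma eta1 : 6 * (d : ℝ) * Real.exp (-h ^ 2 / 2) ≤ 3 / 100 := S.eta.trans (by norm_num)

lemma eta2 : 2 * (d : ℝ) * Real.exp (-h ^ 2 / 2) ≤ 1 / 10 := by
  have h1 := S.eta
  have h2 : 0 ≤ (d : ℝ) * Real.exp (-h ^ 2 / 2) := by positivity
  linarith

/-- `1/b0 ≤ 10^16 Q²` -/
lemma inv_b0 : 1 / b0 ≤ 10 ^ 16 * Q R d ^ 2 := by
  rw [S.hb0]
  have h1 := S.Q_ge
  have hd : (0 : ℝ) ≤ d := Nat.cast_nonneg d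
  have h2 : ((d : ℝ) + 1) ^ 2 ≤ Q R d ^ 2 := pow_le_pow_left₀ (by positivity) h1 2
  have e : 1 / (1 / 10 ^ 16 / ((d : ℝ) + 1) ^ 2) = 10 ^ 16 * ((d : ℝ) + 1) ^ 2 := by
    field_simp
  rw [e]
  linarith

lemma kapB_le' : kapB k0 b0 h ≤ 4 * 10 ^ 16 * Q R d ^ 2 * k0 := by
  refine S.kapB_le.trans ?_
  have h1 := S.inv_b0
  have h2 := S.k0_pos
  calc 4 * k0 / b0 = 4 * k0 * (1 / b0) := by ring
    _ ≤ 4 * k0 * (10 ^ 16 * Q R d ^ 2) := by gcongr
    _ = _ := by ring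

/-- `N` -/
lemma hN : N = 1 / 10 ^ 6 / (((d : ℝ) + 1) * (1 + R) ^ 2) := S.eN

lemma N_pos : 0 < N := by
  rw [S.hN]
  have := S.hR0
  positivity

lemma N_le : N ≤ 1 / 10 ^ 6 := by
  rw [S.hN]
  have h1 := S.hR0
  have hd : (0 : ℝ) ≤ d := Nat.cast_nonneg d
  refine div_le_self (by norm_num) ?_
  have h2 : 1 ≤ (1 + R) ^ 2 := one_le_pow₀ (by linarith)
  nlinarith

lemma inv_N : 1 / N ≤ 10 ^ 6 * Q R d ^ 2 := by
  rw [S.hN]
  have hR := S.hR0
  have hd : (0 : ℝ) ≤ d := Nat.cast_nonneg d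
  have e : 1 / (1 / 10 ^ 6 / (((d : ℝ) + 1) * (1 + R) ^ 2)) = 10 ^ 6 * (((d : ℝ) + 1) * (1 + R) ^ 2) := by
    field_simp
  rw [e]
  refine mul_le_mul_of_nonneg_left ?_ (by norm_num)
  unfold Q
  have h1 : (d : ℝ) + 1 ≤ ((d : ℝ) + 1) ^ 2 := by nlinarith
  calc ((d : ℝ) + 1) * (1 + R) ^ 2 ≤ ((d : ℝ) + 1) ^ 2 * (1 + R) ^ 2 :=
        mul_le_mul_of_nonneg_right h1 (by positivity)
    _ = _ := by ring

/-- total angle -/
lemma theta {δ : ℝ} (hδ : δ = 1 / 19200) : 3 * Real.pi * N / δ ≤ 1 := by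
  have h1 := S.N_le
  have h2 := S.N_pos
  have h3 := Real.pi_lt_four
  have h4 := Real.pi_pos
  rw [hδ, div_le_iff₀ (by norm_num)]
  nlinarith

/-- the angle condition of `G3_box` -/
lemma hang {δ : ℝ} (hδ : δ = 1 / 19200) :
    Real.sqrt d * (3 * Real.pi * N / δ * R) * (1 + R) ≤ 1 := by
  have h3 := Real.pi_lt_four
  have h4 := Real.pi_pos
  have hR := S.hR0
  have hd : (0 : ℝ) ≤ d := Nat.cast_nonneg d
  have h5 : Real.sqrt d ≤ (d : ℝ) + 1 := by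
    rw [Real.sqrt_le_left (by positivity)]
    nlinarith
  rw [S.hN, hδ]
  have e : Real.sqrt d * (3 * Real.pi * (1 / 10 ^ 6 / (((d : ℝ) + 1) * (1 + R) ^ 2)) / (1 / 19200) * R)
      * (1 + R) = (3 * Real.pi * 19200 / 10 ^ 6) * (Real.sqrt d / ((d : ℝ) + 1)) * (R / (1 + R)) := by
    field_simp
  rw [e]
  have h6 : Real.sqrt d / ((d : ℝ) + 1) ≤ 1 := by rw [div_le_one (by positivity)]; exact h5
  have h7 : R / (1 + R) ≤ 1 := by rw [div_le_one (by positivity)]; linarith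
  have h8 : 0 ≤ Real.sqrt d / ((d : ℝ) + 1) := by positivity
  have h9 : 0 ≤ R / (1 + R) := by positivity
  have h10 : 3 * Real.pi * 19200 / 10 ^ 6 ≤ 1 := by
    rw [div_le_one (by norm_num)]
    nlinarith
  calc (3 * Real.pi * 19200 / 10 ^ 6) * (Real.sqrt d / ((d : ℝ) + 1)) * (R / (1 + R))
      ≤ 1 * 1 * 1 := by gcongr
    _ = 1 := by norm_num

/-- `PZL`: `d ε ≤ 1/16` for `ε = 64/M` -/
lemma eps_d : (d : ℝ) * (64 / M) ≤ 1 / 16 := by
  rw [S.hM]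
  have hd : (0 : ℝ) ≤ d := Nat.cast_nonneg d
  rw [mul_div_assoc', div_le_div_iff₀ (by positivity) (by norm_num)]
  linarith

/-- the condition on `N` of the block lemma -/
lemma Nlog {E : Type*} [NormedAddCommGroup E] [InnerProductSpace ℝ E] {f : ℕ → E} {i m : ℕ}
    (hi : i ≤ d) (hm : m ≤ d) (x : E) {c : ℝ} (hc : 1 / 2 ≤ c) :
    (N / 2) ^ 2 * (1 - Real.log (c * capR A0 k0 f h i x)) * (3 * 10 ^ 8 * ((m : ℝ) + 1)) ≤ 1 := by
  have h1 := S.par.one_sub_log_le (f := f) hi x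
  have hpos := capR_pos (f := f) (h := h) S.par.hA S.par.hk i x
  have h2 : Real.log (c * capR A0 k0 f h i x) = Real.log c + Real.log (capR A0 k0 f h i x) :=
    Real.log_mul (by linarith) hpos.ne'
  have h3 : -1 ≤ Real.log c := by
    have h4 : Real.log (1 / 2) ≤ Real.log c := Real.log_le_log (by norm_num) hc
    have h5 : Real.log (1 / 2) = - Real.log 2 := by rw [one_div, Real.log_inv]
    have h6 := Real.log_two_lt_d9
    linarith
  have hR := S.hR2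
  have hd : (0 : ℝ) ≤ d := Nat.cast_nonneg d
  have h7 : 1 - Real.log (c * capR A0 k0 f h i x) ≤ (1 + R) ^ 2 := by
    rw [h2]; nlinarith
  have hmd : (m : ℝ) + 1 ≤ (d : ℝ) + 1 := by
    have : (m : ℝ) ≤ d := by exact_mod_cast hm
    linarith
  have hm0 : (0 : ℝ) ≤ m := Nat.cast_nonneg m
  calc (N / 2) ^ 2 * (1 - Real.log (c * capR A0 k0 f h i x)) * (3 * 10 ^ 8 * ((m : ℝ) + 1))
      ≤ (N / 2) ^ 2 * (1 + R) ^ 2 * (3 * 10 ^ 8 * ((d : ℝ) + 1)) := by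
        have hN2 : 0 ≤ (N / 2) ^ 2 := by positivity
        have ha : (N / 2) ^ 2 * (1 - Real.log (c * capR A0 k0 f h i x)) ≤ (N / 2) ^ 2 * (1 + R) ^ 2 :=
          mul_le_mul_of_nonneg_left h7 hN2
        have hb : 3 * 10 ^ 8 * ((m : ℝ) + 1) ≤ 3 * 10 ^ 8 * ((d : ℝ) + 1) := by linarith
        exact mul_le_mul ha hb (by positivity) (by positivity)
    _ ≤ 1 := by
        rw [S.hN]
        have hd1 : 0 < (d : ℝ) + 1 := by positivity
        have hR1 : 0 < 1 + R := by linarith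
        have e : (1 / 10 ^ 6 / (((d : ℝ) + 1) * (1 + R) ^ 2) / 2) ^ 2 * (1 + R) ^ 2
            * (3 * 10 ^ 8 * ((d : ℝ) + 1))
            = 3 * 10 ^ 8 / (4 * 10 ^ 12) * (1 / (((d : ℝ) + 1) * (1 + R) ^ 2)) := by
          field_simp
          norm_num
        rw [e]
        have h8 : 1 / (((d : ℝ) + 1) * (1 + R) ^ 2) ≤ 1 := by
          rw [div_le_one (by positivity)]
          have : 1 ≤ (1 + R) ^ 2 := one_le_pow₀ (by linarith)
          nlinarith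
        have h9 : 0 ≤ 1 / (((d : ℝ) + 1) * (1 + R) ^ 2) := by positivity
        nlinarith

end

/-! ### consequences of the master inequality -/

section

variable (S : SmallN K n d h A0 k0 b0 R M N) (hn : 4 ≤ n) (hK : 10 ^ 20 * Real.exp (2 ^ 11) ≤ K)

include S hn hK

lemma one_le_e : (1 : ℝ) ≤ Real.exp (2 ^ 11) := Real.one_le_exp (by norm_num)

lemma kap_le : kapB k0 b0 h ≤ 1 / 100 := by
  have h1 := S.small (A := 10 ^ 20 * Real.exp (2 ^ 11)) (m := 2) (by positivity) hK (by omega)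
  have h2 := S.kapB_le'
  have h3 := Real.one_le_exp (show (0 : ℝ) ≤ 2 ^ 11 by norm_num)
  have h4 : 0 ≤ Q R d ^ 2 * k0 := by
    have := S.k0_pos
    positivity
  have h5 : 10 ^ 20 * (Q R d ^ 2 * k0) ≤ 10 ^ 20 * Real.exp (2 ^ 11) * Q R d ^ 2 * k0 := by
    have : 10 ^ 20 * Real.exp (2 ^ 11) * Q R d ^ 2 * k0
        = 10 ^ 20 * (Q R d ^ 2 * k0) * Real.exp (2 ^ 11) := by ring
    rw [this]
    exact le_mul_of_one_le_right (by positivity) h3
  linarith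

lemma Mkap : (M + kapB k0 b0 h) * b0 ≤ 1 / 5 := by
  have h1 := S.kap_le hn hK
  have h2 := S.d_c0
  have h3 := S.b0_pos
  have h4 := S.c0_nonneg
  have hd : (0 : ℝ) ≤ d := Nat.cast_nonneg d
  have h5 := S.M_ge
  have h6 : (M + kapB k0 b0 h) * b0 ≤ (M + 1) * b0 := by
    apply mul_le_mul_of_nonneg_right _ h3.le
    linarith
  nlinarith

/-- `κ` of `G2` -/
lemma kappa_le : 2 * Real.exp (2 ^ 11) * k0 ≤ 1 / 3 := by
  have h1 := S.small (A := 10 ^ 20 * Real.exp (2 ^ 11)) (m := 0) (by positivity) hK (by omega)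
  rw [pow_zero, mul_one] at h1
  have h4 : 0 ≤ Real.exp (2 ^ 11) * k0 := by
    have := S.k0_pos
    positivity
  generalize Real.exp (2 ^ 11) = e at *
  have h5 : 10 ^ 20 * e * k0 = 10 ^ 20 * (e * k0) := by ring
  have h6 : 2 * e * k0 = 2 * (e * k0) := by ring
  rw [h5] at h1
  rw [h6]
  linarith

lemma d_kappa : (d : ℝ) * (2 * Real.exp (2 ^ 11) * k0) ≤ 1 / 2 := by
  have h1 := S.small (A := 10 ^ 20 * Real.exp (2 ^ 11)) (m := 1) (by positivity) hK (by omega)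
  rw [pow_one] at h1
  have h2 := S.d_le_Q
  have h3 := S.k0_pos
  have h4 : (d : ℝ) * (2 * Real.exp (2 ^ 11) * k0) ≤ Q R d * (2 * Real.exp (2 ^ 11) * k0) := by
    apply mul_le_mul_of_nonneg_right h2; positivity
  have h5 : 0 ≤ Real.exp (2 ^ 11) * Q R d * k0 := by
    have := S.one_le_Q
    positivity
  generalize Real.exp (2 ^ 11) = e at *
  have h6 : 10 ^ 20 * e * Q R d * k0 = 10 ^ 20 * (e * Q R d * k0) := by ring
  have h7 : Q R d * (2 * e * k0) = 2 * (e * Q R d * k0) := by ring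
  rw [h6] at h1
  rw [h7] at h4
  linarith

end

end SmallN

/-- `κ` -/
noncomputable def kpa (k0 : ℝ) : ℝ := 2 * Real.exp (2 ^ 11) * k0

/-! ### the blocks that are already closed -/

section blocks

variable {E : Type*} [NormedAddCommGroup E] [InnerProductSpace ℝ E] [FiniteDimensional ℝ E]
  [MeasurableSpace E] [BorelSpace E]

variable (S : Sys E) {K : ℝ} {n : ℕ} {h A0 k0 b0 : ℝ} (P : Par S.d h A0 k0 b0 S.R)
  (hcp : S.cp = capsBox S.hf P) (hS : SmallN K n S.d h A0 k0 b0 S.R S.M S.N)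
  (hn : 4 ≤ n) (hK : 10 ^ 20 * Real.exp (2 ^ 11) ≤ K)

include hcp

lemma cp_b0 : S.cp.b0 = b0 := by rw [hcp]; rfl

lemma cp_kap : S.cp.kap = kapB k0 b0 h := by rw [hcp]; rfl

lemma cp_A (i : ℕ) (x : E) : S.cp.A i x = capR A0 k0 S.f h i x := by rw [hcp]; rfl

include hS hn hK

theorem blk_R1 : S.R1 := by
  refine S.R1_of (by linarith [hS.M_ge]) ?_ ?_
  · rw [cp_kap S P hcp]; linarith [hS.kap_le hn hK]
  · rw [cp_kap S P hcp, cp_b0 S P hcp]; exact hS.Mkap hn hK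

theorem blk_G1 (hδ : S.δ = 1 / 19200) : S.G1 := by
  refine S.G1_of (by linarith [hS.M_ge]) ?_ ?_ ?_ ?_
  · rw [cp_kap S P hcp]; linarith [hS.kap_le hn hK]
  · rw [cp_kap S P hcp, cp_b0 S P hcp]; exact hS.Mkap hn hK
  · rw [hδ]; norm_num
  · rw [hδ]

theorem blk_G2 : S.G2 (kpa k0) := by
  refine H502.G2_of_tip S (C := 2 * Real.exp (2 ^ 11)) (κ0 := k0) ?_ hS.k0_pos.le le_rfl ?_
    (blk_R1 S P hcp hS hn hK)
  · have := Real.one_le_exp (show (0 : ℝ) ≤ 2 ^ 11 by norm_num)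
    linarith
  · exact H502.tip_box S.cp S.hf P.hh hS.eta2 P.hA.le P.hk.le fun i hi x => cp_A S P hcp i x

theorem blk_G2' : S.G2' (3 * kpa k0 * (1 + 1 / b0)) := by
  have h1 := H502.G2p_of_G2 S (κ := kpa k0) (by unfold kpa; have := hS.k0_pos; positivity)
    (hS.kappa_le hn hK) (blk_G2 S P hcp hS hn hK)
  rw [cp_b0 S P hcp] at h1
  exact h1

theorem blk_G3 (hδ : S.δ = 1 / 19200) : S.G3 (H706.cG3 S.d S.R b0 (kpa k0)) := by
  have h1 := H706.G3_box S (A0 := A0) (kap0 := k0) (h := h) P.hA.le P.hk.le P.hh hS.eta1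
    (fun l hl x => cp_A S P hcp l x) (by linarith [hS.hR2]) (blk_R1 S P hcp hS hn hK)
    (hS.hang hδ) (κ := kpa k0) (by unfold kpa; have := hS.k0_pos; positivity)
    (hS.d_kappa hn hK) (blk_G2 S P hcp hS hn hK)
  rw [cp_b0 S P hcp] at h1
  exact h1

end blocks

end Vale.Agent.P262.M1
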