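import Vale.Agent.P262.M1.Blocks
import Vale.Agent.P262.H118.SysGeo
import Vale.Agent.P262.H654.FieldE
import Vale.Agent.P262.H852.Slice
import Vale.Agent.P262.H59.StepG
import Vale.Agent.P262.H502.SysA

/-!
# P262, milestone 1: the field on `S : Sys E`

Field threshold of a label of level `l`: `(M + 1) * A l` (the rule uses `M * A l`; the field has the
value one at killed labels, whose mass is at most `kap * A l`).
-/

set_option linter.all false

open MeasureTheory ProbabilityTheory Set
open scoped ENNReal RealInnerProductSpace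
open Vale.Agent.P262.H118 (L Iv st en ONB K1 rotE ON tau)
open Vale.Agent.P262.H395 (fib mix Inv Fixes)
open Vale.Agent.P262.H493 (star)
open Vale.Agent.P262.H654 (Lev fl vis wt kt al hid nk fr InvR Good LevOK Bd)
open Vale.Agent.P262.H847 (UI)

namespace Vale.Agent.P262.M1

variable {E : Type*} [NormedAddCommGroup E] [InnerProductSpace ℝ E] [FiniteDimensional ℝ E]

variable [MeasurableSpace E] [BorelSpace E]

/-! ### indicators and fibre averages -/

/-- real valued indicator -/
noncomputable def ind (s : Set E) : E → ℝ := s.indicator fun _ => (1 : ℝ)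

omit [NormedAddCommGroup E] [InnerProductSpace ℝ E] [FiniteDimensional ℝ E]
  [MeasurableSpace E] [BorelSpace E] in
lemma ind_mem {s : Set E} {x : E} (h : x ∈ s) : ind s x = 1 := indicator_of_mem h _

omit [NormedAddCommGroup E] [InnerProductSpace ℝ E] [FiniteDimensional ℝ E]
  [MeasurableSpace E] [BorelSpace E] in
lemma ind_notMem {s : Set E} {x : E} (h : x ∉ s) : ind s x = 0 := indicator_of_notMem h _

omit [NormedAddCommGroup E] [InnerProductSpace ℝ E] [FiniteDimensional ℝ E]
  [MeasurableSpace E] [BorelSpace E] in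
lemma ind_nonneg (s : Set E) (x : E) : 0 ≤ ind s x := by
  by_cases h : x ∈ s
  · rw [ind_mem h]; exact zero_le_one
  · rw [ind_notMem h]

omit [NormedAddCommGroup E] [InnerProductSpace ℝ E] [FiniteDimensional ℝ E]
  [MeasurableSpace E] [BorelSpace E] in
lemma ind_le_one (s : Set E) (x : E) : ind s x ≤ 1 := by
  by_cases h : x ∈ s
  · rw [ind_mem h]
  · rw [ind_notMem h]; exact zero_le_one

lemma ind_UI {s : Set E} (hs : MeasurableSet s) : UI (ind s) :=
  ⟨measurable_const.indicator hs, ind_nonneg s, ind_le_one s⟩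

lemma ofReal_ind (s : Set E) (x : E) : ENNReal.ofReal (ind s x) = Sys.iw s x := by
  unfold Sys.iw
  by_cases h : x ∈ s
  · rw [ind_mem h, indicator_of_mem h]; simp
  · rw [ind_notMem h, indicator_of_notMem h]; simp

lemma one_sub_ind_compl (s : Set E) (x : E) : 1 - ind sᶜ x = ind s x := by
  by_cases h : x ∈ s
  · rw [ind_mem h, ind_notMem (by simpa using h)]; ring
  · rw [ind_notMem h, ind_mem (by simpa using h)]; ring

/-- fibre averages do not see isometries fixing the labels -/
lemma fr_fixes {U : E ≃ₗᵢ[ℝ] E} {W : Submodule ℝ E} (h : Fixes U W) (f : E → ℝ) (x : E) :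
    fr W (fun y => f (U y)) x = fr W f x := by
  unfold fr
  have e : ∀ z, U (mix W x z) = mix W x (U z) := by
    intro z
    have h1 := H395.mix_map_isometry U W x z
    rw [h.map_eq] at h1
    rw [← h1]
    unfold H395.mix
    rw [h.proj x]
  simp_rw [e]
  exact (H395.mp_isometry U).integral_comp (U.toHomeomorph.measurableEmbedding)
    (fun z => f (mix W x z))

lemma fr_fixes_symm {U : E ≃ₗᵢ[ℝ] E} {W : Submodule ℝ E} (h : Fixes U W) (f : E → ℝ) (x : E) :
    fr W (fun y => f (U.symm y)) x = fr W f x := fr_fixes h.symm f x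

lemma fib_ind {s : Set E} (hs : MeasurableSet s) (W : Submodule ℝ E) (x : E) :
    ENNReal.ofReal (fr W (ind s) x) = fib W (s.indicator 1) x := by
  rw [H654.ofReal_fr (Bd.of_UI (ind_UI hs)) (ind_nonneg s)]
  congr 1
  funext y
  exact ofReal_ind s y

namespace Sys

variable (S : Sys E)

/-! ### levels and the field -/

/-- level `l` -/
noncomputable def lev (l : ℕ) : Lev E := ⟨L S.f l, fun x => (S.M + 1) * S.cp.A l x, S.cp.Z l⟩

/-- the levels `a, ..., b - 1` -/
noncomputable def lvs (a b : ℕ) : List (Lev E) := (List.range' a (b - a)).map S.lev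

/-- the field of level `l` (levels `> l`) at state `m`, leaf coordinates -/
noncomputable def fld (l m : ℕ) : E → ℝ := fl (S.lvs (l + 1) S.d) (ind (S.X S.lf m)ᶜ)

/-- visible mass -/
noncomputable def Fv (l m : ℕ) : E → ℝ := fr (L S.f l) (S.fld l m)

/-- hidden field -/
noncomputable def hdn (l m : ℕ) : E → ℝ := hid (S.lvs (l + 1) S.d) (ind (S.X S.lf m)ᶜ)

/-- leaf coordinates to level-`l` coordinates -/
noncomputable def Cg (l m : ℕ) : E ≃ₗᵢ[ℝ] E := (S.el.U S.lf m).trans (S.el.U l m).symm

/-- the field of level `l` in level-`l` coordinates -/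
noncomputable def fldL (l m : ℕ) : E → ℝ := fun z => S.fld l m ((S.Cg l m).symm z)

lemma mem_lvs {a b : ℕ} {p : Lev E} : p ∈ S.lvs a b ↔ ∃ l, a ≤ l ∧ l < b ∧ p = S.lev l := by
  unfold lvs
  simp only [List.mem_map, List.mem_range'_1]
  constructor
  · rintro ⟨l, ⟨h1, h2⟩, rfl⟩
    exact ⟨l, h1, by omega, rfl⟩
  · rintro ⟨l, h1, h2, rfl⟩
    exact ⟨l, ⟨h1, by omega⟩, rfl⟩

lemma lvs_nil {a b : ℕ} (h : b ≤ a) : S.lvs a b = [] := by
  unfold lvs
  have : b - a = 0 := by omega
  rw [this]; rfl

lemma lvs_cons {a b : ℕ} (h : a < b) : S.lvs a b = S.lev a :: S.lvs (a + 1) b := by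
  unfold lvs
  have : b - a = (b - (a + 1)) + 1 := by omega
  rw [this, List.range'_succ, List.map_cons]

lemma lvs_append {a b c : ℕ} (h1 : a ≤ b) (h2 : b ≤ c) :
    S.lvs a c = S.lvs a b ++ S.lvs b c := by
  unfold lvs
  rw [← List.map_append]
  congr 1
  have e1 : c - a = (b - a) + (c - b) := by omega
  have e2 : b = a + (b - a) := by omega
  rw [e1]
  conv_rhs => rw [e2]
  rw [show (a + (b - a) - a) = b - a by omega, show c - (a + (b - a)) = c - b by omega]
  exact (List.range'_append_1).symm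

lemma length_lvs (a b : ℕ) : (S.lvs a b).length = b - a := by
  unfold lvs; simp

lemma measurableSet_Z (l : ℕ) : MeasurableSet (S.cp.Z l) := by
  simpa using (S.cp.Z_closed l).measurableSet.compl

lemma Z_mono' {i j : ℕ} (h : i ≤ j) : S.cp.Z i ⊆ S.cp.Z j := monotone_nat_of_le_succ S.cp.Z_mono h

lemma levOK {c0 : ℝ} (hM : 0 ≤ S.M) (hc : (S.M + 1) * S.cp.b0 ≤ c0) (l : ℕ) :
    LevOK c0 (S.lev l) where
  meas := (S.cp.A_meas l).const_mul _
  inv := fun x w hw => by
    show (S.M + 1) * S.cp.A l (x + w) = (S.M + 1) * S.cp.A l x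
    rw [S.cp.A_cyl l x w hw]
  measZ := S.measurableSet_Z l
  invZ := S.cp.Z_cyl l
  nonneg := fun x => mul_nonneg (by linarith) (S.cp.A_pos l x).le
  le := fun x hx => (mul_le_mul_of_nonneg_left (S.cp.A_le l x hx) (by linarith)).trans hc

lemma good_lvs {c0 : ℝ} (hM : 0 ≤ S.M) (hc : (S.M + 1) * S.cp.b0 ≤ c0) (a b : ℕ) :
    Good c0 (S.lvs a b) := by
  have : ∀ n a, Good c0 ((List.range' a n).map S.lev) := by
    intro n
    induction n with
    | zero => intro a; exact trivial
    | succ n ih =>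
      intro a
      rw [List.range'_succ, List.map_cons]
      refine ⟨S.levOK hM hc a, fun q hq => ?_, ih (a + 1)⟩
      simp only [List.mem_map, List.mem_range'_1] at hq
      obtain ⟨l, ⟨h1, _⟩, rfl⟩ := hq
      exact H118.L_mono S.f (by omega)
  exact this _ _

end Sys

end Vale.Agent.P262.M1
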