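import Vale.Agent.P262.M1.Top
import Vale.Agent.P262.H924.Base
import Vale.Agent.P262.H924.Small

/-!
# P262, milestone 1: parameters (helper924)

`Small`: the parameters of the system (`M = CM (d+1)`, `b0 = cb/(d+1)²`, `A0 = cA/(d+1)²`,
`N = cN/((d+1)(1+R)²)`, cap decay `k0` with `K ((1+R)(d+1))^n k0 ≤ 1`).
`final_of_acc`: if for one choice of the absolute constants the accounting `ACC` holds for every
system with small parameters and healthy states, then `signedConst d ≤ C √(d log (d+1))`.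
-/

set_option linter.all false

open MeasureTheory ProbabilityTheory Set
open scoped ENNReal RealInnerProductSpace
open Vale.Agent.P262.H118 (L Iv st en ONB K1 rotE ON tau)
open Vale.Agent.P262.H395 (fib mix Inv)
open Vale.Agent.P262.H493 (star)
open Vale.Agent.P262.H924

namespace Vale.Agent.P262.M1

/-- the parameters of milestone 1 -/
structure Small (CM cb cA cN K : ℝ) (n : ℕ) (d : ℕ) (h A0 k0 b0 R M N : ℝ) : Prop where
  par : Par d h A0 k0 b0 R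
  eta : 6 * d * Real.exp (-h ^ 2 / 2) ≤ 1 / 1000
  k_half : k0 ≤ 1 / 2
  eM : M = CM * ((d : ℝ) + 1)
  eb : b0 = cb / ((d : ℝ) + 1) ^ 2
  eA : A0 = cA / ((d : ℝ) + 1) ^ 2
  eN : N = cN / (((d : ℝ) + 1) * (1 + R) ^ 2)
  kapB_le : kapB k0 b0 h ≤ 4 * k0 / b0
  master : K * ((1 + R) * ((d : ℝ) + 1)) ^ n * k0 ≤ 1

lemma two_le_R {d : ℕ} {h A0 k0 b0 R : ℝ} (P : Par d h A0 k0 b0 R) : 2 ≤ R := by
  have h1 : 0 ≤ Real.log (1 / k0) := Real.log_nonneg (by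
    rw [one_div]; exact (one_le_inv₀ P.hk).2 P.hk1)
  have h2 : 0 ≤ Real.log (b0 / A0) := Real.log_nonneg ((one_le_div P.hA).2 P.hAb)
  have h3 : 0 ≤ Real.log (1 / A0) := Real.log_nonneg (by
    rw [one_div]; exact (one_le_inv₀ P.hA).2 (P.hAb.trans P.hb1))
  have h4 := P.rad
  have h5 : (0 : ℝ) ≤ 2 * d * h ^ 2 := by positivity
  have h6 : 0 ≤ (d : ℝ) * Real.log (1 / k0) := by positivity
  have h7 : (2 : ℝ) ^ 2 ≤ R ^ 2 := by linarith
  exact le_of_sq_le_sq h7 P.hR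
  
/-- existence of the parameters -/
theorem exists_small {CM cb cA cN K : ℝ} (n : ℕ) (hcb : 0 < cb) (hcb1 : cb ≤ 1) (hcA : 0 < cA)
    (hcA1 : cA ≤ cb) :
    ∃ R0 : ℝ, 1 ≤ R0 ∧ ∀ d : ℕ, 1 ≤ d → ∃ h A0 k0 b0 R M N : ℝ,
      R = R0 * Real.sqrt (d * Real.log ((d : ℝ) + 1)) ∧
      Small CM cb cA cN K n d h A0 k0 b0 R M N := by
  obtain ⟨R0, hR0, H⟩ := exists_base (CM := CM) (cN := cN) (K := K) (η := 1 / 1000) n hcb hcb1 hcA
    hcA1 (by norm_num) (by norm_num)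
  refine ⟨R0, hR0, fun d hd => ?_⟩
  obtain ⟨h, k0, R, h1, h2, h3, h4, h5, h6⟩ := H d hd
  exact ⟨h, _, k0, _, R, _, _, h1, ⟨h2, h3, h4, rfl, rfl, rfl, rfl, h5, h6⟩⟩

lemma sqrt_succ_le {d : ℕ} (hd : 1 ≤ d) :
    Real.sqrt (((d + 1 : ℕ) : ℝ) * Real.log (((d + 1 : ℕ) : ℝ) + 1))
      ≤ 2 * Real.sqrt (d * Real.log ((d : ℝ) + 1)) := by
  have hd' : (1 : ℝ) ≤ d := by exact_mod_cast hd
  have h2 : (2 : ℝ) * Real.sqrt (d * Real.log ((d : ℝ) + 1))
      = Real.sqrt (4 * (d * Real.log ((d : ℝ) + 1))) := by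
    have e : (2 : ℝ) = Real.sqrt 4 := by
      rw [show (4 : ℝ) = 2 ^ 2 by norm_num, Real.sqrt_sq (by norm_num)]
    rw [Real.sqrt_mul (by norm_num : (0 : ℝ) ≤ 4) (d * Real.log ((d : ℝ) + 1)), ← e]
  rw [h2]
  apply Real.sqrt_le_sqrt
  have h3 : Real.log (((d + 1 : ℕ) : ℝ) + 1) ≤ 2 * Real.log ((d : ℝ) + 1) := by
    rw [← Real.log_rpow (by linarith)]
    apply Real.log_le_log (by positivity)
    push_cast
    rw [show ((2 : ℝ)) = ((2 : ℕ) : ℝ) by norm_num, Real.rpow_natCast]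
    nlinarith
  have h4 : 0 ≤ Real.log ((d : ℝ) + 1) := Real.log_nonneg (by linarith)
  have h5 : 0 ≤ Real.log (((d + 1 : ℕ) : ℝ) + 1) := Real.log_nonneg (by push_cast; linarith)
  calc ((d + 1 : ℕ) : ℝ) * Real.log (((d + 1 : ℕ) : ℝ) + 1)
      ≤ (2 * d) * (2 * Real.log ((d : ℝ) + 1)) := by
        apply mul_le_mul _ h3 h5 (by positivity)
        push_cast; linarith
    _ = _ := by ring

/-- all bodies are nonempty, for one space -/
theorem good_of_acc {CM cb cA cN K δ : ℝ} {n : ℕ} (hcb : 0 < cb) (hcA : 0 < cA)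
    (hcA2 : cA ≤ 1 / 200) (hcN : 0 ≤ cN) (hδ : 0 < δ) (hδ1 : δ ≤ 1 / 400)
    (hn : 2 ≤ n) (hK : 8 / cb ≤ K) {E : Type} [NormedAddCommGroup E] [InnerProductSpace ℝ E]
    [FiniteDimensional ℝ E] [MeasurableSpace E] [BorelSpace E] {D : ℕ}
    (hfin : Module.finrank ℝ E = D) (hD2 : 2 ≤ D) {h A0 k0 b0 R M N : ℝ}
    (hS : Small CM cb cA cN K n D h A0 k0 b0 R M N)
    (H : ∀ (S : Sys E) (h A0 k0 b0 : ℝ)
      (P : Par S.d h A0 k0 b0 S.R), S.cp = capsBox S.hf P → S.δ = δ →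
      Small CM cb cA cN K n S.d h A0 k0 b0 S.R S.M S.N → (∀ k ≤ S.mT, S.Healthy k) → S.ACC) :
    Good E R δ := by
  have P := hS.par
  obtain ⟨f, hf⟩ := exists_ONB hfin
  have hD : (1 : ℝ) ≤ (D : ℝ) := by exact_mod_cast (by omega : 1 ≤ D)
  have hN0 : 0 ≤ N := by
    rw [hS.eN]
    have := P.hR
    positivity
  have hkap : (capsBox hf P).kap ≤ 1 / 2 := by
    rw [capsBox_kap]
    refine hS.kapB_le.trans ?_
    rw [div_le_iff₀ P.hb]
    have hb := hS.eb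
    have hQ : (D : ℝ) + 1 ≤ (1 + R) * ((D : ℝ) + 1) := by
      have := P.hR
      nlinarith
    have hQ1 : 1 ≤ (1 + R) * ((D : ℝ) + 1) := by linarith
    have h2 : ((D : ℝ) + 1) ^ 2 ≤ ((1 + R) * ((D : ℝ) + 1)) ^ n :=
      (pow_le_pow_left₀ (by linarith) hQ 2).trans (pow_le_pow_right₀ hQ1 hn)
    have h3 : 8 / cb * ((D : ℝ) + 1) ^ 2 * k0 ≤ 1 := by
      refine le_trans ?_ hS.master
      refine mul_le_mul_of_nonneg_right ?_ P.hk.le
      exact mul_le_mul hK h2 (by positivity) (le_trans (by positivity) hK)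
    have h4 : 0 < ((D : ℝ) + 1) ^ 2 := by positivity
    rw [hb]
    rw [← mul_div_assoc, le_div_iff₀ h4]
    have h5 : 8 / cb * ((D : ℝ) + 1) ^ 2 * k0 * cb
        = 2 * (4 * k0 * ((D : ℝ) + 1) ^ 2) := by
      field_simp
      ring
    have h6 := mul_le_mul_of_nonneg_right h3 hcb.le
    linarith
  have hA00 : (capsBox hf P).A 0 0 = A0 := by rw [capsBox_A]; exact capR_zero _
  have hA200 : A0 ≤ 1 / 200 := by
    rw [hS.eA]
    refine le_trans (div_le_self hcA.le ?_) hcA2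
    exact one_le_pow₀ (by linarith)
  refine good_of_health (c := 3 * A0) (by linarith) fun v T hv => ?_
  have h1 := health (N := N) (M := M) hf hfin hD2 (capsBox hf P) hN0 hδ hδ1 hkap
    (by rw [hA00]; exact hA200) (by rw [hA00]; exact P.tail hfin hS.k_half)
    (fun v T hT hv K1 el hH => H _ h A0 k0 b0 P rfl rfl hS hH) v T hv
  rw [hA00] at h1
  exact h1

/-- **Milestone 1 from the accounting.** -/
theorem final_of_acc {CM cb cA cN K δ : ℝ} {n : ℕ} (hcb : 0 < cb) (hcb1 : cb ≤ 1) (hcA : 0 < cA)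
    (hcA1 : cA ≤ cb) (hcA2 : cA ≤ 1 / 200) (hcN : 0 ≤ cN) (hδ : 0 < δ) (hδ1 : δ ≤ 1 / 400)
    (hn : 2 ≤ n) (hK : 8 / cb ≤ K)
    (H : ∀ (E : Type) [NormedAddCommGroup E] [InnerProductSpace ℝ E] [FiniteDimensional ℝ E]
      [MeasurableSpace E] [BorelSpace E] (S : Sys E) (h A0 k0 b0 : ℝ)
      (P : Par S.d h A0 k0 b0 S.R), S.cp = capsBox S.hf P → S.δ = δ →
      Small CM cb cA cN K n S.d h A0 k0 b0 S.R S.M S.N → (∀ k ≤ S.mT, S.Healthy k) → S.ACC) :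
    ∃ C : ℝ, 0 < C ∧ ∀ d : ℕ, 1 ≤ d →
      signedConst d ≤ ENNReal.ofReal (C * Real.sqrt (d * Real.log ((d : ℝ) + 1))) := by
  obtain ⟨R0, hR0, HS⟩ := exists_small (CM := CM) (cN := cN) (K := K) n hcb hcb1 hcA hcA1
  refine ⟨4 * R0 / δ, by positivity, fun d hd => ?_⟩
  obtain ⟨h, A0, k0, b0, R, M, N, hR, hS⟩ := HS (d + 1) (by omega)
  have hfin : Module.finrank ℝ (WithLp 2 (EuclideanSpace ℝ (Fin d) × ℝ)) = d + 1 := by
    have e := (WithLp.linearEquiv 2 ℝ (EuclideanSpace ℝ (Fin d) × ℝ)).finrank_eq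
    rw [e, Module.finrank_prod, finrank_euclideanSpace_fin, Module.finrank_self]
  have hgood := good_of_acc hcb hcA hcA2 hcN hδ hδ1 hn hK hfin (by omega) hS
    (H (WithLp 2 (EuclideanSpace ℝ (Fin d) × ℝ)))
  refine (signedConst_le hδ hgood).trans (ENNReal.ofReal_le_ofReal ?_)
  rw [hR]
  have h7 := sqrt_succ_le hd
  calc 2 * (R0 * Real.sqrt (((d + 1 : ℕ) : ℝ) * Real.log (((d + 1 : ℕ) : ℝ) + 1))) / δ
      ≤ 2 * (R0 * (2 * Real.sqrt (d * Real.log ((d : ℝ) + 1)))) / δ := by gcongr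
    _ = _ := by ring

end Vale.Agent.P262.M1
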