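import Vale.Agent.P262.M1.Param2
import Vale.Agent.P262.H852.LblE
import Vale.Agent.P262.H395.Tel3

/-!
# P262, milestone 1: the blocks `LBL`, `LBI`, `TEL` with the numerical constants (helper924)
-/

set_option linter.all false

open MeasureTheory ProbabilityTheory Set
open scoped ENNReal RealInnerProductSpace
open Vale.Agent.P262.H118 (L Iv st en ONB K1 rotE ON tau)
open Vale.Agent.P262.H395 (fib mix Inv)
open Vale.Agent.P262.H493 (star)
open Vale.Agent.P262.H924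

namespace Vale.Agent.P262.M1

/-- the constant `c` of the charges -/
noncomputable def cc (R M : ℝ) : ℝ := 144 * (1 + R) * (M + 1)

/-- the constant `cL` of the block lemma -/
noncomputable def cLL (N R : ℝ) (d : ℕ) : ℝ := N / (4 * 10 ^ 15 * ((d : ℝ) + 1) ^ 5 * (1 + R) ^ 2)

namespace SmallN

variable {K : ℝ} {n d : ℕ} {h A0 k0 b0 R M N : ℝ} (S : SmallN K n d h A0 k0 b0 R M N)

include S

lemma M1_le : M + 1 ≤ 1025 * Q R d := by
  rw [S.hM]
  have h1 := S.Q_ge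
  have h2 := S.one_le_Q
  linarith

lemma hk_small (hn : 4 ≤ n) (hK : 10 ^ 40 * Real.exp (2 ^ 11) ≤ K) :
    2 * kapB k0 b0 h * (M + 1) ≤ 1 / 10 ^ 11 := by
  have h0 := Real.one_le_exp (show (0 : ℝ) ≤ 2 ^ 11 by norm_num)
  have h1 := S.small (A := 10 ^ 40) (m := 3) (by positivity) (by
    refine le_trans ?_ hK
    exact le_mul_of_one_le_right (by positivity) h0) (by omega)
  have h2 := S.kapB_le'
  have h3 := S.M1_le
  have h4 := S.one_le_Q
  have h5 := S.k0_pos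
  have h6 := S.M_ge
  have h7 : kapB k0 b0 h * (M + 1) ≤ (4 * 10 ^ 16 * Q R d ^ 2 * k0) * (1025 * Q R d) :=
    mul_le_mul h2 h3 (by linarith) (by positivity)
  have h8 : (4 * 10 ^ 16 * Q R d ^ 2 * k0) * (1025 * Q R d) = 4100 * 10 ^ 16 * (Q R d ^ 3 * k0) := by
    ring
  rw [h8] at h7
  have h9 : (10 : ℝ) ^ 40 * Q R d ^ 3 * k0 = 10 ^ 40 * (Q R d ^ 3 * k0) := by ring
  rw [h9] at h1
  have h10 : 0 ≤ Q R d ^ 3 * k0 := by positivity
  have h11 : 2 * kapB k0 b0 h * (M + 1) = 2 * (kapB k0 b0 h * (M + 1)) := by ring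
  rw [h11]
  generalize Q R d ^ 3 * k0 = y at *
  norm_num at h1 h7 ⊢
  linarith

lemma cL_pos : 0 < cLL N R d := by
  unfold cLL
  have h1 := S.N_pos
  have h2 := S.hR0
  positivity

/-- `1/cL ≤ 4 10^21 Q^9` -/
lemma inv_cL : 1 / cLL N R d ≤ 4 * 10 ^ 21 * Q R d ^ 9 := by
  unfold cLL
  have h1 := S.inv_N
  have h2 := S.hR0
  have h3 := S.N_pos
  have h4 := S.Q_ge
  have h5 := S.Q_ge1
  have hd : (0 : ℝ) ≤ d := Nat.cast_nonneg d
  have e : 1 / (N / (4 * 10 ^ 15 * ((d : ℝ) + 1) ^ 5 * (1 + R) ^ 2))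
      = (1 / N) * (4 * 10 ^ 15 * ((d : ℝ) + 1) ^ 5 * (1 + R) ^ 2) := by
    field_simp
  rw [e]
  have h6 : ((d : ℝ) + 1) ^ 5 ≤ Q R d ^ 5 := pow_le_pow_left₀ (by positivity) h4 5
  have h7 : (1 + R) ^ 2 ≤ Q R d ^ 2 := pow_le_pow_left₀ (by positivity) h5 2
  calc (1 / N) * (4 * 10 ^ 15 * ((d : ℝ) + 1) ^ 5 * (1 + R) ^ 2)
      ≤ (10 ^ 6 * Q R d ^ 2) * (4 * 10 ^ 15 * Q R d ^ 5 * Q R d ^ 2) := by
        have hQ := S.one_le_Q
        gcongr
    _ = _ := by ring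

lemma cc_le : cc R M ≤ 147600 * Q R d ^ 2 := by
  unfold cc
  have h1 := S.M1_le
  have h2 := S.Q_ge1
  have h3 := S.hR0
  have h4 := S.M_ge
  have h5 := S.one_le_Q
  have h6 : (1 + R) * (M + 1) ≤ Q R d * (1025 * Q R d) := mul_le_mul h2 h1 (by linarith) (by linarith)
  calc 144 * (1 + R) * (M + 1) = 144 * ((1 + R) * (M + 1)) := by ring
    _ ≤ 144 * (Q R d * (1025 * Q R d)) := by linarith
    _ = _ := by ring

lemma cc_nonneg : 0 ≤ cc R M := by
  unfold cc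
  have h3 := S.hR0
  have h4 := S.M_ge
  positivity

lemma NA : N ^ 2 * (1 - Real.log (9 / 10 * Real.exp (1 - R ^ 2 / 8)))
    * (3 * 10 ^ 8 * ((d : ℝ) + 1)) ≤ 1 := by
  have hR := S.hR2
  have hd : (0 : ℝ) ≤ d := Nat.cast_nonneg d
  have h1 : Real.log (9 / 10 * Real.exp (1 - R ^ 2 / 8)) = Real.log (9 / 10) + (1 - R ^ 2 / 8) := by
    rw [Real.log_mul (by norm_num) (Real.exp_pos _).ne', Real.log_exp]
  have h3 : -1 ≤ Real.log (9 / 10) := by
    have h4 : Real.log (1 / 2) ≤ Real.log (9 / 10) := Real.log_le_log (by norm_num) (by norm_num)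
    have h5 : Real.log (1 / 2) = - Real.log 2 := by rw [one_div, Real.log_inv]
    have h6 := Real.log_two_lt_d9
    linarith
  have h7 : 1 - Real.log (9 / 10 * Real.exp (1 - R ^ 2 / 8)) ≤ (1 + R) ^ 2 := by
    rw [h1]; nlinarith
  have hN := S.hN
  have hN0 := S.N_pos
  calc N ^ 2 * (1 - Real.log (9 / 10 * Real.exp (1 - R ^ 2 / 8))) * (3 * 10 ^ 8 * ((d : ℝ) + 1))
      ≤ N ^ 2 * (1 + R) ^ 2 * (3 * 10 ^ 8 * ((d : ℝ) + 1)) := by
        have hN2 : 0 ≤ N ^ 2 := by positivity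
        have ha := mul_le_mul_of_nonneg_left h7 hN2
        exact mul_le_mul_of_nonneg_right ha (by positivity)
    _ ≤ 1 := by
        rw [hN]
        have hd1 : 0 < (d : ℝ) + 1 := by positivity
        have hR1 : 0 < 1 + R := by linarith
        have e : (1 / 10 ^ 6 / (((d : ℝ) + 1) * (1 + R) ^ 2)) ^ 2 * (1 + R) ^ 2
            * (3 * 10 ^ 8 * ((d : ℝ) + 1))
            = 3 * 10 ^ 8 / 10 ^ 12 * (1 / (((d : ℝ) + 1) * (1 + R) ^ 2)) := by
          field_simp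
        rw [e]
        have h8 : 1 / (((d : ℝ) + 1) * (1 + R) ^ 2) ≤ 1 := by
          rw [div_le_one (by positivity)]
          have : 1 ≤ (1 + R) ^ 2 := one_le_pow₀ (by linarith)
          nlinarith
        have h9 : 0 ≤ 1 / (((d : ℝ) + 1) * (1 + R) ^ 2) := by positivity
        nlinarith

end SmallN

section blocks

variable {E : Type*} [NormedAddCommGroup E] [InnerProductSpace ℝ E] [FiniteDimensional ℝ E]
  [MeasurableSpace E] [BorelSpace E]

variable (S : Sys E) {K : ℝ} {n : ℕ} {h A0 k0 b0 : ℝ} (P : Par S.d h A0 k0 b0 S.R)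
  (hcp : S.cp = capsBox S.hf P) (hS : SmallN K n S.d h A0 k0 b0 S.R S.M S.N)
  (hn : 4 ≤ n) (hK : 10 ^ 40 * Real.exp (2 ^ 11) ≤ K)

include hcp hS hn hK

theorem blk_LabNum (hδ : S.δ = 1 / 19200) :
    S.LabNum 8 (cc S.R S.M) (Real.exp (1 - S.R ^ 2 / 8)) ((S.M + 1) * b0) where
  M2 := by linarith [hS.M_ge]
  R0 := hS.hR0
  N0 := hS.N_pos
  N1 := hS.N_le.trans (by norm_num)
  δ0 := by rw [hδ]; norm_num
  δ1 := by rw [hδ]; norm_num
  c00 := hS.c0_nonneg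
  hc0 := by rw [cp_b0 S P hcp]
  hc := hS.c0_16
  hd := hS.hidden
  hk := by rw [cp_kap S P hcp]; exact hS.hk_small hn hK
  hb1 := by rw [cp_b0 S P hcp]; exact P.hb1
  Am0 := Real.exp_pos _
  Am := fun l x hl _ => by
    rw [cp_A S P hcp]
    exact P.le_cap (f := S.f) (by have := S.d_eq; omega) x
  NA := hS.NA
  hcs := le_rfl
  hc1 := by
    unfold cc
    have h1 := hS.hR0
    have h2 := hS.M_ge
    nlinarith
  hc2 := by
    unfold cc
    have h1 := hS.hR0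
    have h2 := hS.M_ge
    nlinarith

theorem blk_LBL (hδ : S.δ = 1 / 19200) : S.LBL (cLL S.N S.R S.d) 8 (cc S.R S.M) := by
  refine (blk_LabNum S P hcp hS hn hK hδ).lbl (le_of_eq ?_)
  unfold cLL
  have h1 := hS.hR0
  field_simp

theorem blk_LBI (hδ : S.δ = 1 / 19200) : S.LBI 8 (cc S.R S.M) :=
  (blk_LabNum S P hcp hS hn hK hδ).lbi

omit hcp hn hK in
theorem blk_TEL : S.TEL := H395.Tel.tel S (by linarith [hS.M_ge])

end blocks

end Vale.Agent.P262.M1
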