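import Vale.Agent.P262.M1.Param3

/-!
# P262, milestone 1: the smallness conditions of the accounting (helper924)
-/

set_option linter.all false

open MeasureTheory ProbabilityTheory Set
open scoped ENNReal RealInnerProductSpace
open Vale.Agent.P262.H924

namespace Vale.Agent.P262.M1

namespace SmallN

variable {K : ℝ} {n d : ℕ} {h A0 k0 b0 R M N : ℝ} (S : SmallN K n d h A0 k0 b0 R M N)

include S

lemma sqrt_d_le : Real.sqrt d ≤ Q R d := by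
  have h1 := S.Q_ge
  have hd : (0 : ℝ) ≤ d := Nat.cast_nonneg d
  refine le_trans ?_ h1
  rw [Real.sqrt_le_left (by positivity)]
  nlinarith

/-- `c3` of `G3` -/
lemma c3_le : H706.cG3 d R b0 (kpa k0) ≤ 10 ^ 25 * (Real.exp (2 ^ 11) * Q R d ^ 9 * k0) := by
  unfold H706.cG3 kpa
  have h1 := S.one_le_Q
  have h2 := S.d_le_Q
  have h3 := S.sqrt_d_le
  have h4 := S.R_le_Q
  have h5 := S.Q_ge1
  have h6 := S.inv_b0
  have h7 := S.k0_pos
  have h8 := S.hR0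
  have h9 := S.b0_pos
  have hd : (0 : ℝ) ≤ d := Nat.cast_nonneg d
  have he := Real.exp_pos (2 ^ 11)
  generalize Real.exp (2 ^ 11) = e at *
  set q := Q R d with hq
  have hq0 : 0 ≤ q := by linarith
  have a1 : 200001 + 400000 * R ≤ 400000 * q := by linarith
  have a2 : 1 + (d : ℝ) / b0 ≤ 2 * 10 ^ 16 * q ^ 3 := by
    have e1 : (d : ℝ) / b0 = d * (1 / b0) := by ring
    rw [e1]
    have e2 : (d : ℝ) * (1 / b0) ≤ q * (10 ^ 16 * q ^ 2) :=
      mul_le_mul h2 h6 (by positivity) hq0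
    have e3 : (1 : ℝ) ≤ q ^ 3 := one_le_pow₀ h1
    have e4 : q * (10 ^ 16 * q ^ 2) = 10 ^ 16 * q ^ 3 := by ring
    rw [e4] at e2
    linarith
  have a3 : (1 + R) ^ 2 ≤ q ^ 2 := pow_le_pow_left₀ (by linarith) h5 2
  have h10 : 0 ≤ 1 + (d : ℝ) / b0 := by positivity
  calc 272 * (d : ℝ) * Real.sqrt d * R * (1 + R) ^ 2 * (200001 + 400000 * R) * (2 * e * k0)
        * (1 + (d : ℝ) / b0)
      ≤ 272 * q * q * q * q ^ 2 * (400000 * q) * (2 * e * k0) * (2 * 10 ^ 16 * q ^ 3) := by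
        gcongr
    _ = 272 * 400000 * 4 * 10 ^ 16 * (e * q ^ 9 * k0) := by ring
    _ ≤ 10 ^ 25 * (e * q ^ 9 * k0) := by
        apply mul_le_mul_of_nonneg_right (by norm_num) (by positivity)

lemma kappa'_le : 3 * kpa k0 * (1 + 1 / b0) ≤ 10 ^ 18 * (Real.exp (2 ^ 11) * Q R d ^ 9 * k0) := by
  unfold kpa
  have h1 := S.one_le_Q
  have h6 := S.inv_b0
  have h7 := S.k0_pos
  have h9 := S.b0_pos
  have he := Real.exp_pos (2 ^ 11)
  generalize Real.exp (2 ^ 11) = e at *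
  set q := Q R d with hq
  have hq0 : 0 ≤ q := by linarith
  have a1 : 1 + 1 / b0 ≤ 2 * 10 ^ 16 * q ^ 9 := by
    have e1 : (1 : ℝ) ≤ q ^ 9 := one_le_pow₀ h1
    have e2 : q ^ 2 ≤ q ^ 9 := pow_le_pow_right₀ h1 (by norm_num)
    linarith
  calc 3 * (2 * e * k0) * (1 + 1 / b0) ≤ 3 * (2 * e * k0) * (2 * 10 ^ 16 * q ^ 9) := by gcongr
    _ = 12 * 10 ^ 16 * (e * q ^ 9 * k0) := by ring
    _ ≤ _ := mul_le_mul_of_nonneg_right (by norm_num) (by positivity)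

lemma c3_nonneg : 0 ≤ H706.cG3 d R b0 (kpa k0) := by
  unfold H706.cG3 kpa
  have h7 := S.k0_pos
  have h8 := S.hR0
  have h9 := S.b0_pos
  positivity

lemma kappa'_nonneg : 0 ≤ 3 * kpa k0 * (1 + 1 / b0) := by
  unfold kpa
  have h7 := S.k0_pos
  have h9 := S.b0_pos
  positivity

/-- `kk` of the accounting -/
lemma kk_le : (d : ℝ) * (1 + cc R M) * (H706.cG3 d R b0 (kpa k0) + 3 * kpa k0 * (1 + 1 / b0))
    ≤ 10 ^ 31 * (Real.exp (2 ^ 11) * Q R d ^ 12 * k0) := by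
  have h1 := S.one_le_Q
  have h2 := S.d_le_Q
  have h3 := S.c3_le
  have h4 := S.kappa'_le
  have h5 := S.cc_le
  have h6 := S.c3_nonneg
  have h7 := S.kappa'_nonneg
  have h8 := S.cc_nonneg
  have h9 := S.k0_pos
  have hd : (0 : ℝ) ≤ d := Nat.cast_nonneg d
  have he := Real.exp_pos (2 ^ 11)
  generalize Real.exp (2 ^ 11) = e at *
  set q := Q R d with hq
  set c3 := H706.cG3 d R b0 (kpa k0) with hc3
  set κ := 3 * kpa k0 * (1 + 1 / b0) with hκ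
  have hq0 : 0 ≤ q := by linarith
  have a1 : 1 + cc R M ≤ 150000 * q ^ 2 := by
    have e1 : (1 : ℝ) ≤ q ^ 2 := one_le_pow₀ h1
    linarith
  have hY : 0 ≤ e * q ^ 9 * k0 := by positivity
  have a2 : c3 + κ ≤ 2 * 10 ^ 25 * (e * q ^ 9 * k0) := by
    have : (10 : ℝ) ^ 18 * (e * q ^ 9 * k0) ≤ 10 ^ 25 * (e * q ^ 9 * k0) :=
      mul_le_mul_of_nonneg_right (by norm_num) hY
    linarith
  have a3 : (d : ℝ) * (1 + cc R M) ≤ q * (150000 * q ^ 2) :=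
    mul_le_mul h2 a1 (by linarith) hq0
  calc (d : ℝ) * (1 + cc R M) * (c3 + κ) ≤ (q * (150000 * q ^ 2)) * (2 * 10 ^ 25 * (e * q ^ 9 * k0)) :=
        mul_le_mul a3 a2 (by linarith) (by positivity)
    _ = 150000 * 2 * 10 ^ 25 * (e * q ^ 12 * k0) := by ring
    _ ≤ _ := mul_le_mul_of_nonneg_right (by norm_num) (by positivity)

lemma kk_nonneg : 0 ≤ (d : ℝ) * (1 + cc R M)
    * (H706.cG3 d R b0 (kpa k0) + 3 * kpa k0 * (1 + 1 / b0)) := by
  have h6 := S.c3_nonneg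
  have h7 := S.kappa'_nonneg
  have h8 := S.cc_nonneg
  positivity

/-- `1/cL + cB` -/
lemma cLcB_le : 1 / cLL N R d + cc R M ≤ 5 * 10 ^ 21 * Q R d ^ 9 := by
  have h1 := S.one_le_Q
  have h2 := S.inv_cL
  have h3 := S.cc_le
  set q := Q R d with hq
  have e2 : q ^ 2 ≤ q ^ 9 := pow_le_pow_right₀ h1 (by norm_num)
  have e3 : 0 ≤ q ^ 9 := by positivity
  linarith

/-- the smallness conditions of `Sys.acc` (with `Θ = 1`, `cs = 8`, `cB = cP = cc`) -/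
theorem acc_small (hn : 25 ≤ n) (hK : 10 ^ 62 * Real.exp (2 ^ 11) ≤ K) :
    (4 * ((d : ℝ) * (1 + cc R M) * (H706.cG3 d R b0 (kpa k0) + 3 * kpa k0 * (1 + 1 / b0))) +
      (d : ℝ) * (1 / cLL N R d + cc R M) * ((d : ℝ) * (1 + cc R M)
        * (H706.cG3 d R b0 (kpa k0) + 3 * kpa k0 * (1 + 1 / b0))) * (4 * 1 + 4) ≤ 1 / 2) ∧
    ((2 * ((d : ℝ) * (1 + cc R M) * (H706.cG3 d R b0 (kpa k0) + 3 * kpa k0 * (1 + 1 / b0))) +
      ((d : ℝ) * (1 + cc R M) + 4 * M) * ((d : ℝ) * (1 + cc R M)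
        * (H706.cG3 d R b0 (kpa k0) + 3 * kpa k0 * (1 + 1 / b0))) * (4 * 1 + 4)) *
      (2 * ((d : ℝ) * (1 / cLL N R d + cc R M) * 8)) ≤ 1 / 16) ∧
    ((2 * ((d : ℝ) * (1 + cc R M) * (H706.cG3 d R b0 (kpa k0) + 3 * kpa k0 * (1 + 1 / b0))) +
      ((d : ℝ) * (1 + cc R M) + 4 * M) * ((d : ℝ) * (1 + cc R M)
        * (H706.cG3 d R b0 (kpa k0) + 3 * kpa k0 * (1 + 1 / b0))) * (4 * 1 + 4)) * 4 ≤ 1) := by
  have h1 := S.one_le_Q
  have h2 := S.d_le_Q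
  have h3 := S.kk_le
  have h4 := S.kk_nonneg
  have h5 := S.cLcB_le
  have h6 := S.cc_le
  have h7 := S.cc_nonneg
  have h8 := S.M1_le
  have h9 := S.k0_pos
  have h10 := S.cL_pos
  have h11 := S.M_ge
  have hd : (0 : ℝ) ≤ d := Nat.cast_nonneg d
  have he := Real.exp_pos (2 ^ 11)
  have hm := S.small (A := 10 ^ 62 * Real.exp (2 ^ 11)) (m := 25) (by positivity) hK hn
  generalize Real.exp (2 ^ 11) = e at *
  set q := Q R d with hq
  set kk := (d : ℝ) * (1 + cc R M) * (H706.cG3 d R b0 (kpa k0) + 3 * kpa k0 * (1 + 1 / b0)) with hkk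
  set Y := 1 / cLL N R d + cc R M with hY
  have hq0 : 0 ≤ q := by linarith
  have hY0 : 0 ≤ Y := by positivity
  set w := e * q ^ 25 * k0 with hw
  have hw0 : 0 ≤ w := by positivity
  have hm' : 10 ^ 62 * w ≤ 1 := by
    refine le_trans (le_of_eq ?_) hm
    rw [hw]; ring
  -- the basic products
  have hk12 : 0 ≤ e * q ^ 12 * k0 := by positivity
  have b0 : kk ≤ 10 ^ 31 * w := by
    refine h3.trans (mul_le_mul_of_nonneg_left ?_ (by norm_num))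
    rw [hw]
    have : q ^ 12 ≤ q ^ 25 := pow_le_pow_right₀ h1 (by norm_num)
    gcongr
  have b1 : (d : ℝ) * Y * kk ≤ 5 * 10 ^ 52 * w := by
    have e1 : (d : ℝ) * Y ≤ q * (5 * 10 ^ 21 * q ^ 9) := mul_le_mul h2 h5 hY0 hq0
    have e2 : (d : ℝ) * Y * kk ≤ (q * (5 * 10 ^ 21 * q ^ 9)) * (10 ^ 31 * (e * q ^ 12 * k0)) :=
      mul_le_mul e1 h3 h4 (by positivity)
    refine e2.trans ?_
    have e3 : (q * (5 * 10 ^ 21 * q ^ 9)) * (10 ^ 31 * (e * q ^ 12 * k0))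
        = 5 * 10 ^ 52 * (e * q ^ 22 * k0) := by ring
    rw [e3, hw]
    have : q ^ 22 ≤ q ^ 25 := pow_le_pow_right₀ h1 (by norm_num)
    gcongr
  have b2 : (d : ℝ) * (1 + cc R M) + 4 * M ≤ 200000 * q ^ 3 := by
    have e1 : 1 + cc R M ≤ 150000 * q ^ 2 := by
      have e1 : (1 : ℝ) ≤ q ^ 2 := one_le_pow₀ h1
      linarith
    have e2 : (d : ℝ) * (1 + cc R M) ≤ q * (150000 * q ^ 2) := mul_le_mul h2 e1 (by linarith) hq0
    have e3 : q ≤ q ^ 3 := by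
      have := pow_le_pow_right₀ h1 (show 1 ≤ 3 by norm_num)
      rwa [pow_one] at this
    have e4 : q * (150000 * q ^ 2) = 150000 * q ^ 3 := by ring
    rw [e4] at e2
    linarith
  have b3 : 2 * kk + ((d : ℝ) * (1 + cc R M) + 4 * M) * kk * (4 * 1 + 4)
      ≤ 2000000 * (q ^ 3 * kk) := by
    have e1 : ((d : ℝ) * (1 + cc R M) + 4 * M) * kk ≤ 200000 * q ^ 3 * kk :=
      mul_le_mul_of_nonneg_right b2 h4
    have e2 : kk ≤ q ^ 3 * kk := by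
      have : (1 : ℝ) ≤ q ^ 3 := one_le_pow₀ h1
      exact le_mul_of_one_le_left h4 this
    have e3 : 200000 * q ^ 3 * kk = 200000 * (q ^ 3 * kk) := by ring
    rw [e3] at e1
    have e4 : 0 ≤ q ^ 3 * kk := by positivity
    linarith only [e1, e2, e4]
  have b4 : q ^ 3 * kk ≤ 10 ^ 31 * (e * q ^ 15 * k0) := by
    calc q ^ 3 * kk ≤ q ^ 3 * (10 ^ 31 * (e * q ^ 12 * k0)) := mul_le_mul_of_nonneg_left h3 (by positivity)
      _ = _ := by ring
  have b5 : 2 * ((d : ℝ) * Y * 8) ≤ 8 * 10 ^ 22 * q ^ 10 := by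
    have e1 : (d : ℝ) * Y ≤ q * (5 * 10 ^ 21 * q ^ 9) := mul_le_mul h2 h5 hY0 hq0
    have e2 : q * (5 * 10 ^ 21 * q ^ 9) = 5 * 10 ^ 21 * q ^ 10 := by ring
    rw [e2] at e1
    linarith only [e1]
  have h15 : 0 ≤ e * q ^ 15 * k0 := by positivity
  have b6 : 2 * kk + ((d : ℝ) * (1 + cc R M) + 4 * M) * kk * (4 * 1 + 4)
      ≤ 2 * 10 ^ 37 * (e * q ^ 15 * k0) := by
    have e1 : 2000000 * (q ^ 3 * kk) ≤ 2000000 * (10 ^ 31 * (e * q ^ 15 * k0)) :=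
      mul_le_mul_of_nonneg_left b4 (by norm_num)
    refine b3.trans (e1.trans (le_of_eq (by ring)))
  refine ⟨?_, ?_, ?_⟩
  · linarith only [b0, b1, hm', hw0]
  · have e1 : (2 * kk + ((d : ℝ) * (1 + cc R M) + 4 * M) * kk * (4 * 1 + 4)) *
        (2 * ((d : ℝ) * Y * 8)) ≤ 2 * 10 ^ 37 * (e * q ^ 15 * k0) * (8 * 10 ^ 22 * q ^ 10) :=
      mul_le_mul b6 b5 (by positivity) (by positivity)
    have e2 : 2 * 10 ^ 37 * (e * q ^ 15 * k0) * (8 * 10 ^ 22 * q ^ 10) = 16 * 10 ^ 59 * w := by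
      rw [hw]; ring
    rw [e2] at e1
    linarith only [e1, hm', hw0]
  · have e1 : e * q ^ 15 * k0 ≤ w := by
      rw [hw]
      have : q ^ 15 ≤ q ^ 25 := pow_le_pow_right₀ h1 (by norm_num)
      gcongr
    linarith only [b6, e1, hm', hw0]

end SmallN

end Vale.Agent.P262.M1
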