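import Vale.Agent.P262.M1.Param4
import Vale.Agent.P262.H502.PzL3
import Vale.Agent.P262.H359.AccSys

/-!
# P262, milestone 1: the bound `σ(d) ≤ C √(d log (d+1))` (helper924: plug of all blocks)
-/

set_option linter.all false

open MeasureTheory ProbabilityTheory Set
open scoped ENNReal RealInnerProductSpace
open Vale.Agent.P262.H118 (L Iv st en ONB K1 rotE ON tau)
open Vale.Agent.P262.H924

namespace Vale.Agent.P262.M1

section blocks

variable {E : Type*} [NormedAddCommGroup E] [InnerProductSpace ℝ E] [FiniteDimensional ℝ E]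
  [MeasurableSpace E] [BorelSpace E]

variable (S : Sys E) {K : ℝ} {n : ℕ} {h A0 k0 b0 : ℝ} (P : Par S.d h A0 k0 b0 S.R)
  (hcp : S.cp = capsBox S.hf P) (hS : SmallN K n S.d h A0 k0 b0 S.R S.M S.N)
  (hn : 25 ≤ n) (hK : 10 ^ 62 * Real.exp (2 ^ 11) ≤ K)

include hcp hS hn hK

theorem blk_PZL (hδ : S.δ = 1 / 19200) : S.PZL (64 / S.M) (cc S.R S.M) := by
  have hK40 : 10 ^ 40 * Real.exp (2 ^ 11) ≤ K := by
    refine le_trans ?_ hK
    have := Real.exp_pos (2 ^ 11)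
    gcongr
    · norm_num
    · norm_num
  have hM := hS.M_ge
  have hM0 : S.M ≠ 0 := by linarith
  refine H502.pzl S (c0 := (S.M + 1) * b0) (c := cc S.R S.M) (cs := 8) (ε := 64 / S.M) ?_ ?_ hS.c0_16
    hS.c0_16d ?_ ?_ ?_ hS.hR0 le_rfl ?_ ?_
  · linarith
  · rw [cp_b0 S P hcp]
  · rw [cp_kap S P hcp]
    exact (hS.hk_small (by omega) hK40).trans (by norm_num)
  · rw [hδ]; norm_num
  · rw [hδ]; norm_num
  · rw [div_mul_cancel₀ _ hM0]; norm_num
  · unfold cc
    have h1 := hS.hR0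
    nlinarith

omit hn hK in
/-- the initial deficit -/
lemma De_start (hk : k0 ≤ 1 / 2) : S.De 0 0 0 ≤ S.a 0 0 := by
  rw [S.De_root, S.a_root]
  have h0 : S.Kb 0 = Metric.closedBall 0 S.R := by
    have h1 := H395.Tel.Kb_n S 0
    rw [S.el.n_zero] at h1
    rw [h1]
    rfl
  rw [h0, cp_A S P hcp, capR_zero]
  have h1 := P.tail S.hd hk
  rw [← ENNReal.ofReal_toReal (measure_ne_top (stdGaussian E) _)]
  exact ENNReal.ofReal_le_ofReal h1

/-- **the accounting holds for the system of milestone 1** -/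
theorem acc_box (hδ : S.δ = 1 / 19200) (hH : ∀ k ≤ S.mT, S.Healthy k) : S.ACC := by
  have he := Real.exp_pos (2 ^ 11)
  have hK20 : 10 ^ 20 * Real.exp (2 ^ 11) ≤ K := by
    refine le_trans ?_ hK
    gcongr
    · norm_num
    · norm_num
  have hK40 : 10 ^ 40 * Real.exp (2 ^ 11) ≤ K := by
    refine le_trans ?_ hK
    gcongr
    · norm_num
    · norm_num
  have hn4 : 4 ≤ n := by omega
  have hM := hS.M_ge
  obtain ⟨s1, s3, s4⟩ := hS.acc_small hn hK
  exact Sys.acc (κ := 3 * kpa k0 * (1 + 1 / b0)) (c3 := H706.cG3 S.d S.R b0 (kpa k0))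
    (cL := cLL S.N S.R S.d) (cs := 8) (cB := cc S.R S.M) (ε := 64 / S.M) (cP := cc S.R S.M)
    (Θ := 1) (by linarith) hS.kappa'_nonneg hS.c3_nonneg hS.cL_pos (by norm_num) hS.cc_nonneg
    (by positivity) hS.cc_nonneg
    (blk_G1 S P hcp hS hn4 hK20 hδ) (blk_G2' S P hcp hS hn4 hK20) (blk_G3 S P hcp hS hn4 hK20 hδ)
    (blk_LBL S P hcp hS hn4 hK40 hδ) (blk_LBI S P hcp hS hn4 hK40 hδ) (blk_TEL S hS)
    (blk_PZL S P hcp hS hn hK hδ) hH (De_start S P hcp hS hS.k_half) (hS.theta hδ) (by norm_num)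
    s1 hS.eps_d s3 s4

end blocks

/-- **Milestone 1**: the signed series constant of Euclidean space is at most
`C √(d log (d+1))`. -/
theorem sigma_le : ∃ C : ℝ, 0 < C ∧ ∀ d : ℕ, 1 ≤ d →
    signedConst d ≤ ENNReal.ofReal (C * Real.sqrt (d * Real.log ((d : ℝ) + 1))) := by
  refine final_of_acc (CM := 1024) (cb := 1 / 10 ^ 16) (cA := 1 / 10 ^ 16) (cN := 1 / 10 ^ 6)
    (K := 10 ^ 62 * Real.exp (2 ^ 11)) (δ := 1 / 19200) (n := 25) (by norm_num) (by norm_num)
    (by norm_num) le_rfl (by norm_num) (by norm_num) (by norm_num) (by norm_num) (by norm_num) ?_ ?_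
  · have := Real.one_le_exp (show (0 : ℝ) ≤ 2 ^ 11 by norm_num)
    have h2 : (10 : ℝ) ^ 62 * 1 ≤ 10 ^ 62 * Real.exp (2 ^ 11) := by gcongr
    refine le_trans ?_ h2
    norm_num
  · intro E _ _ _ _ _ S h A0 k0 b0 P hcp hδ hS hH
    exact acc_box S P hcp hS le_rfl le_rfl hδ hH

end Vale.Agent.P262.M1
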