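import Vale.Agent.P262.M1.TopA
import Vale.Agent.P262.M1.Blocks

/-!
# P262, milestone 1: health induction and top theorem
-/

set_option linter.all false

open MeasureTheory ProbabilityTheory Set
open scoped ENNReal RealInnerProductSpace
open Vale.Agent.P262.H118 (L Iv st en ONB K1 rotE ON tau)
open Vale.Agent.P262.H395 (fib mix Inv)
open Vale.Agent.P262.H493 (star)

namespace Vale.Agent.P262.M1

variable {E : Type*} [NormedAddCommGroup E] [InnerProductSpace ℝ E] [FiniteDimensional ℝ E]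

lemma exists_ONB {d : ℕ} (hd : Module.finrank ℝ E = d) : ∃ f : ℕ → E, ONB f d := by
  classical
  let b := stdOrthonormalBasis ℝ E
  refine ⟨fun i => if h : i < d then b ⟨i, by rw [hd]; exact h⟩ else 0, ?_, ?_⟩
  · intro i hi
    simp only [dif_pos hi]
    exact b.orthonormal.1 _
  · intro i j hij hj
    simp only [dif_pos hj, dif_pos (hij.trans hj)]
    refine b.orthonormal.2 ?_
    intro h
    simp only [Fin.mk.injEq] at h
    omega

variable [MeasurableSpace E] [BorelSpace E]

namespace Sys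

variable (S : Sys E)

lemma measure_X (i m : ℕ) : stdGaussian E (S.X i m) = stdGaussian E (S.Kb m) := by
  have h := (H136.mp_isom (S.el.U i m)).measure_preimage (s := S.Kb m)
    (measurableSet_body _ _ _).nullMeasurableSet
  exact h

lemma measure_Z (hk : S.cp.kap ≤ 1 / 2) {i : ℕ} (hi : i ≤ S.d) :
    stdGaussian E (S.cp.Z i) ≤ ENNReal.ofReal (2 * S.cp.kap * S.cp.A 0 0) := by
  have h := S.cp.killed 0 i (Nat.zero_le _) hi hk (x := 0) (by rw [S.cp.Z_zero]; simp)
  have h0 : L S.f 0 = ⊥ := rfl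
  rw [h0, H395.fib_bot, lintegral_indicator_one (S.cp.Z_meas i)] at h
  exact h

/-- root health from a small deficit -/
lemma healthy_of {m : ℕ} (hk : S.cp.kap ≤ 1 / 2) (hA : S.cp.A 0 0 ≤ 1 / 20)
    (h : (stdGaussian E).real (S.Kb m)ᶜ ≤ 1 / 10) : S.Healthy m := by
  unfold Healthy Kq
  have hm : MeasurableSet (S.Kb m) := measurableSet_body _ _ _
  have hlf : S.lf ≤ S.d := by unfold lf; omega
  have h1 : stdGaussian E (S.X S.lf m) ≤ stdGaussian E (S.X S.lf m \ S.cp.Z S.lf)
      + stdGaussian E (S.cp.Z S.lf) := by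
    refine (measure_mono ?_).trans (measure_union_le _ _)
    intro x hx
    by_cases h : x ∈ S.cp.Z S.lf
    · exact Or.inr h
    · exact Or.inl ⟨hx, h⟩
  have h2 := S.measure_Z hk hlf
  rw [S.measure_X] at h1
  have h3 : ENNReal.ofReal (9 / 10) ≤ stdGaussian E (S.Kb m) := by
    rw [← ENNReal.ofReal_toReal (measure_ne_top (stdGaussian E) (S.Kb m))]
    apply ENNReal.ofReal_le_ofReal
    have h4 := probReal_compl_eq_one_sub (μ := stdGaussian E) hm
    change 9 / 10 ≤ (stdGaussian E).real (S.Kb m)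
    linarith
  have hk0 := S.cp.kap_pos
  have hA0 := S.cp.A_pos 0 0
  have h5 : ENNReal.ofReal (2 * S.cp.kap * S.cp.A 0 0) ≤ ENNReal.ofReal (1 / 20) := by
    apply ENNReal.ofReal_le_ofReal
    nlinarith
  have h6 : ENNReal.ofReal (9 / 10) ≤ stdGaussian E (S.X S.lf m \ S.cp.Z S.lf)
      + ENNReal.ofReal (1 / 20) := h3.trans (h1.trans (add_le_add le_rfl (h2.trans h5)))
  have h7 : ENNReal.ofReal (4 / 5) + ENNReal.ofReal (1 / 20) ≤
      stdGaussian E (S.X S.lf m \ S.cp.Z S.lf) + ENNReal.ofReal (1 / 20) := by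
    rw [← ENNReal.ofReal_add (by norm_num) (by norm_num)]
    refine le_trans (ENNReal.ofReal_le_ofReal (by norm_num)) h6
  exact (ENNReal.add_le_add_iff_right ENNReal.ofReal_ne_top).1 h7

lemma cnt_le {m : ℕ} (hm : m ≤ S.mT) : S.cnt m ≤ S.T := by
  have h := S.tm_lt_of_le hm
  unfold cnt
  split_ifs <;> omega

lemma cnt_mT : S.cnt S.mT = S.T := by
  have h := S.tm_mT
  have hT := S.hT
  have h2 : ¬ S.IsStar S.mT := by
    intro h3
    unfold IsStar at h3
    rw [h] at h3
    have h4 := S.el.n_succ (S.T - 1)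
    rw [Nat.sub_add_cancel hT] at h4
    unfold mT at h3
    omega
  rw [cnt_not_star _ h2, h]
  omega

lemma De_root (m : ℕ) (x : E) : S.De 0 m x = stdGaussian E (S.Kb m)ᶜ := by
  unfold De
  have h0 : L S.f 0 = ⊥ := rfl
  rw [h0, H395.fib_bot, lintegral_indicator_one (S.measurableSet_X 0 m).compl]
  rfl

lemma a_root : S.a 0 0 = ENNReal.ofReal (S.cp.A 0 0) := by
  unfold a
  rw [if_neg (by rw [S.cp.Z_zero]; simp)]

end Sys

/-- **Health induction.** -/
theorem health {N δ R M : ℝ} {f : ℕ → E} {d : ℕ} (hf : ONB f d)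
    (hd : Module.finrank ℝ E = d) (hd2 : 2 ≤ d) (cp : Caps f d R) (hN : 0 ≤ N) (hδ : 0 < δ)
    (hδ1 : δ ≤ 1 / 400) (hk : cp.kap ≤ 1 / 2) (hA : cp.A 0 0 ≤ 1 / 200)
    (h0 : (stdGaussian E).real (Metric.closedBall (0 : E) R)ᶜ ≤ cp.A 0 0)
    (hacc : ∀ (v : ℕ → E) (T : ℕ) (hT : 0 < T) (hv : ∀ t, t < T → ‖v t‖ = δ)
      (K : K1 v T N δ f d) (el : H118.Elem K),
      (∀ k ≤ (Sys.mk v T N δ R M f d hf hd hd2 hT hv K el cp).mT,
        (Sys.mk v T N δ R M f d hf hd hd2 hT hv K el cp).Healthy k) →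
      (Sys.mk v T N δ R M f d hf hd hd2 hT hv K el cp).ACC)
    (v : ℕ → E) (T : ℕ) (hv : ∀ t, t < T → ‖v t‖ = δ) :
    (stdGaussian E).real (body v R T)ᶜ ≤ 3 * cp.A 0 0 := by
  have hA0 := cp.A_pos 0 0
  induction T using Nat.strong_induction_on with
  | _ T ih =>
    rcases Nat.eq_zero_or_pos T with rfl | hT
    · rw [body]; linarith
    obtain ⟨K⟩ := H118.exists_K1 hf hd hN hδ (by linarith) hv
    obtain ⟨el⟩ := H118.exists_elem K hf
    have hacc' := hacc v T hT hv K el
    set S : Sys E := Sys.mk v T N δ R M f d hf hd hd2 hT hv K el cp with hS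
    have hdef : ∀ t, t ≤ T → (stdGaussian E).real (body v R t)ᶜ ≤ 1 / 10 := by
      intro t ht
      rcases Nat.lt_or_ge t T with h | h
      · have := ih t h fun s hs => hv s (hs.trans h)
        linarith
      · have hTt : t = T := le_antisymm ht h
        obtain ⟨T', rfl⟩ := Nat.exists_eq_add_of_lt hT
        rw [Nat.zero_add] at hTt hv ih
        subst hTt
        have h1 := body_succ_deficit v R T'
        have h2 := ih T' (by omega) fun s hs => hv s (by omega)
        have h3 := hv T' (by omega)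
        rw [h3] at h1
        linarith
    have hH : ∀ k ≤ S.mT, S.Healthy k := by
      intro k hk'
      exact S.healthy_of hk (by linarith) (hdef _ (S.cnt_le hk'))
    have h1 := hacc' hH
    unfold Sys.ACC at h1
    rw [S.De_root, S.a_root] at h1
    have h2 : S.Kb S.mT = body v R T := by
      unfold Sys.Kb
      rw [S.cnt_mT]
    rw [h2] at h1
    have h3 : stdGaussian E (body v R T)ᶜ ≤ ENNReal.ofReal (3 * cp.A 0 0) := by
      rw [ENNReal.ofReal_mul (by norm_num)]
      simpa using h1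
    exact ENNReal.toReal_le_of_le_ofReal (by positivity) h3

/-- all bodies are nonempty -/
def Good (E : Type*) [NormedAddCommGroup E] [InnerProductSpace ℝ E] (R δ : ℝ) : Prop :=
  ∀ (T : ℕ) (v : ℕ → E), (∀ t, t < T → ‖v t‖ = δ) → (body v R T).Nonempty

theorem good_of_health {R δ c : ℝ} (hc : c < 1)
    (h : ∀ (v : ℕ → E) (T : ℕ), (∀ t, t < T → ‖v t‖ = δ) →
      (stdGaussian E).real (body v R T)ᶜ ≤ c) : Good E R δ := by
  intro T v hv
  have h1 := h v T hv
  by_contra hcon
  rw [Set.not_nonempty_iff_eq_empty] at hcon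
  rw [hcon, compl_empty, probReal_univ] at h1
  linarith

theorem signedConst_le {d : ℕ} {R δ : ℝ} (hδ : 0 < δ)
    (h : Good (WithLp 2 (EuclideanSpace ℝ (Fin d) × ℝ)) R δ) :
    signedConst d ≤ ENNReal.ofReal (2 * R / δ) := by
  refine H703.signedConst_le_of_bodies_eq hδ fun l hl => ?_
  rw [← body_eq_bodies]
  refine h _ _ fun t ht => ?_
  have h1 : t < l.reverse.length := by rw [List.length_reverse]; exact ht
  rw [List.getD_eq_getElem _ _ h1]
  exact hl _ (List.mem_reverse.1 (List.getElem_mem h1))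

end Vale.Agent.P262.M1
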