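import Vale.Agent.P262.M1.Top

/-!
# P262: general top theorem (used by milestones 1 and 2)

`deficit_of_closed_h`: it is enough to prove that a family of bodies, all of which have deficit at
most `η`, has final deficit at most `c`, where `4 δ + 4 c ≤ η`.
-/

set_option linter.all false

open MeasureTheory ProbabilityTheory Set
open scoped ENNReal RealInnerProductSpace

namespace Vale.Agent.P262.M1

variable {E : Type*} [NormedAddCommGroup E] [InnerProductSpace ℝ E] [FiniteDimensional ℝ E]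
  [MeasurableSpace E] [BorelSpace E]

/-- **induction on the length**: small deficits stay small (health threshold `η`). -/
theorem deficit_of_closed_h {R δ c η : ℝ} (hδ0 : 0 ≤ δ) (hc : 4 * δ + 4 * c ≤ η)
    (h0 : (stdGaussian E).real (Metric.closedBall (0 : E) R)ᶜ ≤ c)
    (H : ∀ (v : ℕ → E) (T : ℕ), 0 < T → (∀ t, t < T → ‖v t‖ = δ) →
      (∀ t, t ≤ T → (stdGaussian E).real (body v R t)ᶜ ≤ η) →
      (stdGaussian E).real (body v R T)ᶜ ≤ c)
    (v : ℕ → E) (T : ℕ) (hv : ∀ t, t < T → ‖v t‖ = δ) :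
    (stdGaussian E).real (body v R T)ᶜ ≤ c := by
  induction T using Nat.strong_induction_on with
  | _ T ih =>
    rcases Nat.eq_zero_or_pos T with rfl | hT
    · rw [body]; exact h0
    refine H v T hT hv fun t ht => ?_
    have hc0 : 0 ≤ c := measureReal_nonneg.trans h0
    rcases Nat.lt_or_ge t T with h | h
    · have := ih t h fun s hs => hv s (hs.trans h)
      linarith
    · have hTt : t = T := le_antisymm ht h
      obtain ⟨T', rfl⟩ := Nat.exists_eq_add_of_lt hT
      rw [Nat.zero_add] at hTt hv ih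
      subst hTt
      have h1 := body_succ_deficit v R T'
      have h2 := ih T' (by omega) fun s hs => hv s (by omega)
      have h3 := hv T' (by omega)
      rw [h3] at h1
      linarith

/-- the same with `η = 1/10` -/
theorem deficit_of_closed {R δ c : ℝ} (hδ0 : 0 ≤ δ) (hc : 4 * δ + 4 * c ≤ 1 / 10)
    (h0 : (stdGaussian E).real (Metric.closedBall (0 : E) R)ᶜ ≤ c)
    (H : ∀ (v : ℕ → E) (T : ℕ), 0 < T → (∀ t, t < T → ‖v t‖ = δ) →
      (∀ t, t ≤ T → (stdGaussian E).real (body v R t)ᶜ ≤ 1 / 10) →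
      (stdGaussian E).real (body v R T)ᶜ ≤ c)
    (v : ℕ → E) (T : ℕ) (hv : ∀ t, t < T → ‖v t‖ = δ) :
    (stdGaussian E).real (body v R T)ᶜ ≤ c :=
  deficit_of_closed_h hδ0 hc h0 H v T hv

/-- **top theorem** with health threshold `η`: the closed estimate implies the bound for the signed
constant. -/
theorem signedConst_le_of_closed_h {d : ℕ} {R δ c η : ℝ} (hδ : 0 < δ) (hc1 : c < 1)
    (hc : 4 * δ + 4 * c ≤ η)
    (h0 : (stdGaussian (WithLp 2 (EuclideanSpace ℝ (Fin d) × ℝ))).real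
      (Metric.closedBall (0 : WithLp 2 (EuclideanSpace ℝ (Fin d) × ℝ)) R)ᶜ ≤ c)
    (H : ∀ (v : ℕ → WithLp 2 (EuclideanSpace ℝ (Fin d) × ℝ)) (T : ℕ), 0 < T →
      (∀ t, t < T → ‖v t‖ = δ) →
      (∀ t, t ≤ T → (stdGaussian (WithLp 2 (EuclideanSpace ℝ (Fin d) × ℝ))).real
        (body v R t)ᶜ ≤ η) →
      (stdGaussian (WithLp 2 (EuclideanSpace ℝ (Fin d) × ℝ))).real (body v R T)ᶜ ≤ c) :
    signedConst d ≤ ENNReal.ofReal (2 * R / δ) :=
  signedConst_le hδ (good_of_health hc1 fun v T hv => deficit_of_closed_h hδ.le hc h0 H v T hv)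

/-- **top theorem**: the closed estimate implies the bound for the signed constant. -/
theorem signedConst_le_of_closed {d : ℕ} {R δ c : ℝ} (hδ : 0 < δ) (hc1 : c < 1)
    (hc : 4 * δ + 4 * c ≤ 1 / 10)
    (h0 : (stdGaussian (WithLp 2 (EuclideanSpace ℝ (Fin d) × ℝ))).real
      (Metric.closedBall (0 : WithLp 2 (EuclideanSpace ℝ (Fin d) × ℝ)) R)ᶜ ≤ c)
    (H : ∀ (v : ℕ → WithLp 2 (EuclideanSpace ℝ (Fin d) × ℝ)) (T : ℕ), 0 < T →
      (∀ t, t < T → ‖v t‖ = δ) →
      (∀ t, t ≤ T → (stdGaussian (WithLp 2 (EuclideanSpace ℝ (Fin d) × ℝ))).real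
        (body v R t)ᶜ ≤ 1 / 10) →
      (stdGaussian (WithLp 2 (EuclideanSpace ℝ (Fin d) × ℝ))).real (body v R T)ᶜ ≤ c) :
    signedConst d ≤ ENNReal.ofReal (2 * R / δ) :=
  signedConst_le_of_closed_h hδ hc1 hc h0 H

end Vale.Agent.P262.M1
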