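import Vale.Agent.P262.H118.SysBlk
import Vale.Agent.P262.H502.G2b

/-!
# P262, milestone 1: integrated charges of the elementary moves

`gaE cs c i m = E[Om_{≤ i} (Gp + Qp)]` for a star, a rotation and a reopening.
-/

set_option linter.all false

open MeasureTheory ProbabilityTheory Set
open scoped ENNReal RealInnerProductSpace
open Vale.Agent.P262.H118 (L Iv st en ONB K1 rotE ON)
open Vale.Agent.P262.H395 (fib mix Inv)
open Vale.Agent.P262.H493 (star)

namespace Vale.Agent.P262.M1.Sys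

variable {E : Type*} [NormedAddCommGroup E] [InnerProductSpace ℝ E] [FiniteDimensional ℝ E]
  [MeasurableSpace E] [BorelSpace E] (S : Sys E)

/-- the integrated charge of move `m` at level `i` -/
noncomputable def gaE (cs c : ℝ) (i m : ℕ) : ℝ≥0∞ :=
  ∫⁻ x, iw (S.OM i m) x * (S.Gp cs c i m x + S.Qp i m x) ∂stdGaussian E

lemma inv_iw_OM (r m : ℕ) : Inv (L S.f r) (iw (S.OM r m)) :=
  inv_iw fun x w hw => S.OM_cyl r m x hw

lemma measurable_iw_OM (r m : ℕ) : Measurable (iw (S.OM r m)) :=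
  measurable_iw (S.measurableSet_OM r m)

/-- Fubini for the weights. -/
lemma fub {l r : ℕ} (hlr : l ≤ r) (m : ℕ) {g : E → ℝ≥0∞} (hg : Measurable g) :
    ∫⁻ x, iw (S.OM l m) x * fib (L S.f l) (fun y => iw (S.inn l r m) y * g y) x ∂stdGaussian E
      = ∫⁻ x, iw (S.OM r m) x * g x ∂stdGaussian E := by
  have hm : Measurable fun y => iw (S.inn l r m) y * g y :=
    (measurable_iw (S.measurableSet_inn l r m)).mul hg
  rw [H395.lintegral_mul_fib (S.inv_iw_OM l m) (S.measurable_iw_OM l m) hm]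
  refine lintegral_congr fun x => ?_
  rw [← mul_assoc, ← iw_inter, S.OM_inter_inn l r m hlr]

lemma measurable_a (i : ℕ) : Measurable (S.a i) := by
  classical
  unfold a
  exact Measurable.ite (S.measurableSet_Z i) measurable_const (S.cp.A_meas i).ennreal_ofReal

lemma measurable_Xr (i m : ℕ) : Measurable (S.Xr i m) := by
  unfold Xr
  exact (S.measurable_a i).mul ((S.measurable_Dl i m).div (S.measurable_Dc i m))

lemma measurable_iw_X (i m : ℕ) : Measurable (iw (S.X i m)) :=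
  measurable_iw (S.measurableSet_X i m)

/-! ### stars -/

lemma iw_symmDiff (A B : Set E) (x : E) : iw (symmDiff A B) x = iw (B \ A) x + iw (A \ B) x := by
  unfold iw
  by_cases hA : x ∈ A <;> by_cases hB : x ∈ B <;> simp [hA, hB, mem_symmDiff]

/-- **(star)** -/
theorem gaE_star (cs c : ℝ) {i : ℕ} (hi : i ≤ S.lf) {m : ℕ} (h : S.IsStar m) :
    S.gaE cs c i m = ENNReal.ofReal cs * (S.gain m + S.loss m) := by
  have hrot : ¬ S.IsRot m := fun h' => IsRot.not_star S h' h
  have hsd : MeasurableSet (symmDiff (S.X S.lf m) (S.X S.lf (m + 1))) :=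
    (S.measurableSet_X _ _).symmDiff (S.measurableSet_X _ _)
  have e1 : ∀ x, iw (S.OM i m) x * (S.Gp cs c i m x + S.Qp i m x)
      = ENNReal.ofReal cs * (iw (S.OM i m) x * fib (L S.f i) (fun y => iw (S.inn i S.lf m) y
        * iw (symmDiff (S.X S.lf m) (S.X S.lf (m + 1))) y) x) := by
    intro x
    have e2 : S.Qp i m x = 0 := by
      unfold Qp
      rw [if_neg (fun h' => hrot h'.1)]
    have e3 : S.Gp cs c i m x = ENNReal.ofReal cs * fib (L S.f i) (fun y => iw (S.inn i S.lf m) y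
        * iw (symmDiff (S.X S.lf m) (S.X S.lf (m + 1))) y) x := by
      unfold Gp
      rw [if_pos h]
      congr 2
      funext y
      exact iw_inter _ _ _
    rw [e2, e3, add_zero]
    ring
  have m0 : Measurable fun x => iw (S.OM i m) x * fib (L S.f i) (fun y => iw (S.inn i S.lf m) y
        * iw (symmDiff (S.X S.lf m) (S.X S.lf (m + 1))) y) x :=
    (S.measurable_iw_OM i m).mul (H395.measurable_fib
      ((measurable_iw (S.measurableSet_inn _ _ _)).mul (measurable_iw hsd)))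
  unfold gaE
  simp_rw [e1]
  rw [lintegral_const_mul _ m0, S.fub hi m (measurable_iw hsd)]
  congr 1
  unfold gain loss
  have m1 : Measurable fun x => iw (S.OM S.lf m) x * iw (S.X S.lf (m + 1) \ S.X S.lf m) x :=
    (S.measurable_iw_OM _ _).mul
      (measurable_iw ((S.measurableSet_X _ _).diff (S.measurableSet_X _ _)))
  rw [← lintegral_add_left m1]
  refine lintegral_congr fun x => ?_
  rw [← mul_add, iw_symmDiff]

/-! ### rotations -/

/-- **(rot)**, inner rotations -/
theorem gaE_rot_in {cs c c3 κ : ℝ} (hc : 0 ≤ c) (hc3 : 0 ≤ c3) (hκ : 0 ≤ κ) (hG3 : S.G3 c3)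
    (hG2 : H502.G2p S κ) {m : ℕ} (hm : m < S.mT) (h : S.IsRot m) (h1 : S.Healthy m)
    (h2 : S.Healthy (m + 1)) {i : ℕ} (hij : i ≤ S.el.jj m) :
    S.gaE cs c i m ≤ ENNReal.ofReal (c * S.d * (c3 + κ) * S.el.ph m)
      * (S.Un (S.el.jj m) m m + S.Un (S.el.jj m) m (m + 1)) := by
  have hst : ¬ S.IsStar m := IsRot.not_star S h
  have hre : ¬ S.IsRe m := IsRot.not_re S h
  have hph : 0 ≤ S.el.ph m := (S.rot_angle h).1
  have htm : S.tm m < S.T := S.tm_lt_of_lt hm
  set j := S.el.jj m with hj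
  have hjd : j + 1 < S.d := (S.rot_data h).2.1
  have hjlf : j < S.lf := by unfold lf; omega
  set U0 := S.Un j m m with hU0
  set U1 := S.Un j m (m + 1) with hU1
  have hd0 : (0:ℝ) ≤ S.d := Nat.cast_nonneg _
  have hin := S.rot_inside h j htm
  have hsame : S.Same j m (m + 1) := ⟨(S.sB_le j m).trans (Nat.le_succ m), hin.1⟩
  set g : ℕ → E → ℝ≥0∞ := fun i' y => S.Xr i' m y
      + ENNReal.ofReal (S.el.ph m) * S.a i' y *
        (iw (S.X S.lf m) y + iw (S.X S.lf (m + 1)) y) with hg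
  have hgm : ∀ i', Measurable (g i') := fun i' => (S.measurable_Xr i' m).add
    (((S.measurable_a i').const_mul _).mul ((S.measurable_iw_X _ _).add (S.measurable_iw_X _ _)))
  have e1 : ∀ x, iw (S.OM i m) x * (S.Gp cs c i m x + S.Qp i m x)
      = ENNReal.ofReal c * ∑ i' ∈ Finset.Ioc j S.lf,
        iw (S.OM i m) x * fib (L S.f i) (fun y => iw (S.inn i j m) y * g i' y) x := by
    intro x
    have e2 : S.Qp i m x = 0 := by
      unfold Qp
      rw [if_neg (fun h' => by have := h'.2; omega)]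
    have e3 : S.Gp cs c i m x = ENNReal.ofReal c * ∑ i' ∈ Finset.Ioc j S.lf,
        fib (L S.f i) (fun y => iw (S.inn i j m) y * g i' y) x := by
      unfold Gp
      rw [if_neg hst, if_neg hre, if_pos ⟨h, hij⟩]
    rw [e2, e3, add_zero, ← Finset.mul_sum]
    ring
  unfold gaE
  simp_rw [e1]
  have hmf : ∀ i', Measurable (fun x => iw (S.OM i m) x
      * fib (L S.f i) (fun y => iw (S.inn i j m) y * g i' y) x) := fun i' =>
    (S.measurable_iw_OM i m).mul (H395.measurable_fib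
      ((measurable_iw (S.measurableSet_inn _ _ _)).mul (hgm i')))
  rw [lintegral_const_mul _ (Finset.measurable_fun_sum _ fun i' _ => hmf i'),
    lintegral_finset_sum _ fun i' _ => hmf i']
  have hb : ∀ i' ∈ Finset.Ioc j S.lf, ∫⁻ x, iw (S.OM i m) x
      * fib (L S.f i) (fun y => iw (S.inn i j m) y * g i' y) x ∂stdGaussian E
      ≤ ENNReal.ofReal ((c3 + κ) * S.el.ph m) * (U0 + U1) := by
    intro i' hi'
    rw [Finset.mem_Ioc] at hi'
    have hi'd : i' < S.d := by have := S.hd2; unfold lf at hi'; omega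
    rw [S.fub hij m (hgm i')]
    have e2 : ∀ x, iw (S.OM j m) x * g i' x = iw (S.OM j m) x * S.Xr i' m x
        + ENNReal.ofReal (S.el.ph m) * (iw (S.OM j m) x * S.a i' x * iw (S.X S.lf m) x
          + iw (S.OM j m) x * S.a i' x * iw (S.X S.lf (m + 1)) x) := by
      intro x
      simp only [hg]
      ring
    simp_rw [e2]
    have m1 : Measurable fun x => iw (S.OM j m) x * S.a i' x * iw (S.X S.lf m) x :=
      ((S.measurable_iw_OM _ _).mul (S.measurable_a _)).mul (S.measurable_iw_X _ _)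
    have m2 : Measurable fun x => iw (S.OM j m) x * S.a i' x * iw (S.X S.lf (m + 1)) x :=
      ((S.measurable_iw_OM _ _).mul (S.measurable_a _)).mul (S.measurable_iw_X _ _)
    have m3 : Measurable fun x => iw (S.OM j m) x * S.Xr i' m x :=
      (S.measurable_iw_OM _ _).mul (S.measurable_Xr _ _)
    have m4 : Measurable fun x => iw (S.OM j m) x * S.a i' x * iw (S.X S.lf m) x
        + iw (S.OM j m) x * S.a i' x * iw (S.X S.lf (m + 1)) x := m1.add m2
    rw [lintegral_add_left m3, lintegral_const_mul _ m4, lintegral_add_left m1]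
    have b1 := hG3 m i' hm h (by rw [← hj]; exact hi'.1) hi'd h1 h2
    have b2 := hG2 j i' m m hi'.1 hi'd hm.le hm.le (S.same_self htm j) h1
    have b3 := hG2 j i' m (m + 1) hi'.1 hi'd hm.le hm hsame h2
    rw [← hj, ← hU0, ← hU1] at b1
    rw [← hU0] at b2
    rw [← hU1] at b3
    calc _ ≤ ENNReal.ofReal (c3 * S.el.ph m) * (U0 + U1)
          + ENNReal.ofReal (S.el.ph m) * (ENNReal.ofReal κ * U0 + ENNReal.ofReal κ * U1) := by
          gcongr
      _ = ENNReal.ofReal ((c3 + κ) * S.el.ph m) * (U0 + U1) := by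
          rw [← mul_add, ← mul_assoc, ← ENNReal.ofReal_mul hph, ← add_mul,
            ← ENNReal.ofReal_add (by positivity) (by positivity)]
          congr 2
          ring
  have hcard : ((Finset.Ioc j S.lf).card : ℝ≥0∞) ≤ ENNReal.ofReal S.d := by
    rw [ENNReal.ofReal_natCast, Nat.card_Ioc]
    have : S.lf - j ≤ S.d := by unfold lf; omega
    exact_mod_cast this
  calc ENNReal.ofReal c * ∑ i' ∈ Finset.Ioc j S.lf, ∫⁻ x, iw (S.OM i m) x
        * fib (L S.f i) (fun y => iw (S.inn i j m) y * g i' y) x ∂stdGaussian E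
      ≤ ENNReal.ofReal c * ∑ i' ∈ Finset.Ioc j S.lf,
        (ENNReal.ofReal ((c3 + κ) * S.el.ph m) * (U0 + U1)) := by
        gcongr with i' hi'
        exact hb i' hi'
    _ = ENNReal.ofReal c * (((Finset.Ioc j S.lf).card : ℝ≥0∞)
        * (ENNReal.ofReal ((c3 + κ) * S.el.ph m) * (U0 + U1))) := by
        rw [Finset.sum_const, nsmul_eq_mul]
    _ ≤ ENNReal.ofReal c * (ENNReal.ofReal S.d
        * (ENNReal.ofReal ((c3 + κ) * S.el.ph m) * (U0 + U1))) := by gcongr
    _ = ENNReal.ofReal (c * S.d * ((c3 + κ) * S.el.ph m)) * (U0 + U1) := by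
        rw [← mul_assoc, ← mul_assoc, ← ENNReal.ofReal_mul hc,
          ← ENNReal.ofReal_mul (by positivity)]
    _ ≤ _ := by
        refine mul_le_mul' (ENNReal.ofReal_le_ofReal (le_of_eq ?_)) le_rfl
        ring

/-- **(rot)**, outer rotations: the charge is at most the throughput -/
theorem gaE_rot_out {cs c c3 κ : ℝ} (hc : 0 ≤ c) (hc3 : 0 ≤ c3) (hκ : 0 ≤ κ) (hG3 : S.G3 c3)
    (hG2 : H502.G2p S κ) {m : ℕ} (hm : m < S.mT) (h : S.IsRot m) (h1 : S.Healthy m)
    (h2 : S.Healthy (m + 1)) {i : ℕ} (hi : i < S.d) (hij' : S.el.jj m < i) :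
    S.gaE cs c i m ≤ ENNReal.ofReal (c3 * S.el.ph m)
      * (S.Un (S.el.jj m) m m + S.Un (S.el.jj m) m (m + 1)) := by
  have hst : ¬ S.IsStar m := IsRot.not_star S h
  have hre : ¬ S.IsRe m := IsRot.not_re S h
  have hph : 0 ≤ S.el.ph m := (S.rot_angle h).1
  have htm : S.tm m < S.T := S.tm_lt_of_lt hm
  set j := S.el.jj m with hj
  have hjd : j + 1 < S.d := (S.rot_data h).2.1
  have hjlf : j < S.lf := by unfold lf; omega
  set U0 := S.Un j m m with hU0
  set U1 := S.Un j m (m + 1) with hU1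
  have hd0 : (0:ℝ) ≤ S.d := Nat.cast_nonneg _
  have e1 : ∀ x, iw (S.OM i m) x * (S.Gp cs c i m x + S.Qp i m x)
      ≤ iw (S.OM j m) x * S.Xr i m x := by
    intro x
    have e2 : S.Qp i m x = S.Xr i m x := by
      unfold Qp
      rw [if_pos ⟨h, hij'⟩]
    have e3 : S.Gp cs c i m x = 0 := by
      unfold Gp
      rw [if_neg hst, if_neg hre, if_neg (fun h' => absurd h'.2 (by omega))]
    rw [e2, e3, zero_add]
    gcongr
    unfold iw
    exact indicator_le_indicator_of_subset (S.OM_anti hij'.le m) (fun _ => zero_le) x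
  unfold gaE
  refine (lintegral_mono e1).trans ?_
  refine (hG3 m i hm h hij' hi h1 h2).trans ?_
  rw [← hj, ← hU0, ← hU1]

/-- **(rot)** -/
theorem gaE_rot {cs c c3 κ : ℝ} (hc : 0 ≤ c) (hc3 : 0 ≤ c3) (hκ : 0 ≤ κ) (hG3 : S.G3 c3)
    (hG2 : H502.G2p S κ) {m : ℕ} (hm : m < S.mT) (h : S.IsRot m) (h1 : S.Healthy m)
    (h2 : S.Healthy (m + 1)) {i : ℕ} (hi : i < S.d) :
    S.gaE cs c i m ≤ ENNReal.ofReal ((c * S.d + 1) * (c3 + κ) * S.el.ph m)
      * (S.Un (S.el.jj m) m m + S.Un (S.el.jj m) m (m + 1)) := by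
  have hph : 0 ≤ S.el.ph m := (S.rot_angle h).1
  have hd0 : (0:ℝ) ≤ S.d := Nat.cast_nonneg _
  have h5 : 0 ≤ (c3 + κ) * S.el.ph m := by positivity
  rcases Nat.lt_or_ge (S.el.jj m) i with hij | hij
  · refine (S.gaE_rot_out hc hc3 hκ hG3 hG2 hm h h1 h2 hi hij).trans ?_
    refine mul_le_mul' (ENNReal.ofReal_le_ofReal ?_) le_rfl
    have h3 : 0 ≤ c * S.d := by positivity
    have h4 : c3 * S.el.ph m ≤ (c3 + κ) * S.el.ph m := by nlinarith
    nlinarith
  · refine (S.gaE_rot_in hc hc3 hκ hG3 hG2 hm h h1 h2 hij).trans ?_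
    refine mul_le_mul' (ENNReal.ofReal_le_ofReal ?_) le_rfl
    nlinarith

/-! ### reopenings -/

lemma sv_le (m : ℕ) : S.sv m ≤ S.lf := by
  classical
  unfold sv
  exact Nat.findGreatest_le _

/-- a level whose block goes on survives -/
lemma le_sv {i m : ℕ} (hi : i ≤ S.lf) (hn : S.tm m + 1 ∉ S.K.nw i) : i ≤ S.sv m := by
  classical
  unfold sv
  exact Nat.le_findGreatest hi hn

lemma sv_spec {i m : ℕ} (hi : i ≤ S.lf) (hn : S.tm m + 1 ∉ S.K.nw i) :
    S.tm m + 1 ∉ S.K.nw (S.sv m) := by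
  classical
  unfold sv
  exact Nat.findGreatest_spec (P := fun i => S.tm m + 1 ∉ S.K.nw i) hi hn

lemma sv_succ {m : ℕ} (h : S.sv m < S.lf) : S.tm m + 1 ∈ S.K.nw (S.sv m + 1) := by
  classical
  have h1 := Nat.findGreatest_is_greatest (P := fun i => S.tm m + 1 ∉ S.K.nw i) (n := S.lf)
    (k := S.sv m + 1) (by unfold sv; exact Nat.lt_succ_self _) (by omega)
  simpa using h1

/-- **(reopen)** -/
theorem gaE_re {cs c κ : ℝ} (hc : 0 ≤ c) (hκ : 0 ≤ κ)
    (hG2 : H502.G2p S κ) {m : ℕ} (hm : m < S.mT) (h : S.IsRe m) (h1 : S.Healthy m)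
    (h2 : S.Healthy (m + 1)) {i : ℕ} (hi : i < S.d) (hn : S.tm m + 1 ∉ S.K.nb i) :
    (S.sv m = S.lf → S.gaE cs c i m = 0) ∧
    S.gaE cs c i m ≤ ENNReal.ofReal (c * S.d * κ)
      * (S.Un (S.sv m) m m + S.Un (S.sv m) (m + 1) (m + 1)) := by
  have hst : ¬ S.IsStar m := IsRe.not_star S h
  have htm : S.tm m < S.T := S.tm_lt_of_lt hm
  have htm1 : S.tm m + 1 < S.T := S.tm_re_lt h hm
  have hm1 : m + 1 ≤ S.mT := hm
  have htm2 : S.tm (m + 1) < S.T := S.tm_lt_of_le hm1
  have hilf : i ≤ S.lf := by unfold lf; omega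
  have hir : i ≤ S.sv m := S.le_sv hilf fun h' => hn (S.K.nw_subset_nb i h')
  have hrl := S.sv_le m
  set r := S.sv m with hr
  set U0 := S.Un r m m with hU0
  set U1 := S.Un r (m + 1) (m + 1) with hU1
  have hd0 : (0:ℝ) ≤ S.d := Nat.cast_nonneg _
  set g0 : ℕ → E → ℝ≥0∞ := fun i' y => S.a i' y * iw (S.X S.lf m) y with hg0
  set g1 : ℕ → E → ℝ≥0∞ := fun i' y => S.a i' y * iw (S.X S.lf (m + 1)) y with hg1
  have hgm0 : ∀ i', Measurable (g0 i') := fun i' =>
    (S.measurable_a i').mul (S.measurable_iw_X _ _)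
  have hgm1 : ∀ i', Measurable (g1 i') := fun i' =>
    (S.measurable_a i').mul (S.measurable_iw_X _ _)
  have e1 : ∀ x, iw (S.OM i m) x * (S.Gp cs c i m x + S.Qp i m x)
      = ENNReal.ofReal c * ∑ i' ∈ Finset.Ioc r S.lf,
        (iw (S.OM i m) x * fib (L S.f i) (fun y => iw (S.inn i r m) y * g0 i' y) x
          + iw (S.OM i m) x * fib (L S.f i) (fun y => iw (S.inn i r (m + 1)) y * g1 i' y) x) := by
    intro x
    have e2 : S.Qp i m x = 0 := by
      unfold Qp
      rw [if_neg (fun h' => IsRot.not_re S h'.1 h)]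
    have e3 : S.Gp cs c i m x = ENNReal.ofReal c * ∑ i' ∈ Finset.Ioc r S.lf,
        (fib (L S.f i) (fun y => iw (S.inn i r m) y * g0 i' y) x
          + fib (L S.f i) (fun y => iw (S.inn i r (m + 1)) y * g1 i' y) x) := by
      unfold Gp
      rw [if_neg hst, if_pos h]
      simp only [hg0, hg1, mul_assoc]
      rfl
    rw [e2, e3, add_zero]
    simp_rw [← mul_add]
    rw [← Finset.mul_sum]
    ring
  have hz : r = S.lf → S.gaE cs c i m = 0 := by
    intro hrlf
    unfold gaE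
    simp_rw [e1, hrlf, Finset.Ioc_self, Finset.sum_empty, mul_zero, lintegral_zero]
  refine ⟨hz, ?_⟩
  rcases Nat.eq_or_lt_of_le hrl with hrlf | hrlf
  · rw [hz hrlf]; exact zero_le
  have hilf' : i < S.lf := by omega
  have hin := S.re_inside h (l := i) (by omega) htm1 hn
  have hOM : S.OM i m = S.OM i (m + 1) := by
    refine (S.OM_eq (l := i) (m' := m) (m := m + 1) ⟨?_, hin.1⟩ hilf' htm).symm
    exact (S.sB_le i m).trans (Nat.le_succ m)
  unfold gaE
  simp_rw [e1]
  have hmf0 : ∀ i', Measurable (fun x => iw (S.OM i m) x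
      * fib (L S.f i) (fun y => iw (S.inn i r m) y * g0 i' y) x) := fun i' =>
    (S.measurable_iw_OM i m).mul (H395.measurable_fib
      ((measurable_iw (S.measurableSet_inn _ _ _)).mul (hgm0 i')))
  have hmf1 : ∀ i', Measurable (fun x => iw (S.OM i m) x
      * fib (L S.f i) (fun y => iw (S.inn i r (m + 1)) y * g1 i' y) x) := fun i' =>
    (S.measurable_iw_OM i m).mul (H395.measurable_fib
      ((measurable_iw (S.measurableSet_inn _ _ _)).mul (hgm1 i')))
  have hmf : ∀ i', Measurable (fun x => iw (S.OM i m) x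
      * fib (L S.f i) (fun y => iw (S.inn i r m) y * g0 i' y) x
      + iw (S.OM i m) x * fib (L S.f i) (fun y => iw (S.inn i r (m + 1)) y * g1 i' y) x) :=
    fun i' => (hmf0 i').add (hmf1 i')
  rw [lintegral_const_mul _ (Finset.measurable_fun_sum _ fun i' _ => hmf i'),
    lintegral_finset_sum _ fun i' _ => hmf i']
  have hb : ∀ i' ∈ Finset.Ioc r S.lf, ∫⁻ x, (iw (S.OM i m) x
      * fib (L S.f i) (fun y => iw (S.inn i r m) y * g0 i' y) x
      + iw (S.OM i m) x * fib (L S.f i) (fun y => iw (S.inn i r (m + 1)) y * g1 i' y) x)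
        ∂stdGaussian E ≤ ENNReal.ofReal κ * (U0 + U1) := by
    intro i' hi'
    rw [Finset.mem_Ioc] at hi'
    have hi'd : i' < S.d := by have := S.hd2; unfold lf at hi'; omega
    rw [lintegral_add_left (hmf0 i'), S.fub hir m (hgm0 i'), hOM, S.fub hir (m + 1) (hgm1 i')]
    have b2 := hG2 r i' m m hi'.1 hi'd hm.le hm.le (S.same_self htm r) h1
    have b3 := hG2 r i' (m + 1) (m + 1) hi'.1 hi'd hm1 hm1 (S.same_self htm2 r) h2
    rw [← hU0] at b2
    rw [← hU1] at b3
    rw [mul_add]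
    refine add_le_add ?_ ?_
    · refine le_trans (le_of_eq ?_) b2
      refine lintegral_congr fun x => ?_
      simp only [hg0, mul_assoc]
    · refine le_trans (le_of_eq ?_) b3
      refine lintegral_congr fun x => ?_
      simp only [hg1, mul_assoc]
  have hcard : ((Finset.Ioc r S.lf).card : ℝ≥0∞) ≤ ENNReal.ofReal S.d := by
    rw [ENNReal.ofReal_natCast, Nat.card_Ioc]
    have : S.lf - r ≤ S.d := by unfold lf; omega
    exact_mod_cast this
  calc ENNReal.ofReal c * ∑ i' ∈ Finset.Ioc r S.lf, ∫⁻ x, (iw (S.OM i m) x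
        * fib (L S.f i) (fun y => iw (S.inn i r m) y * g0 i' y) x
        + iw (S.OM i m) x * fib (L S.f i) (fun y => iw (S.inn i r (m + 1)) y * g1 i' y) x)
        ∂stdGaussian E
      ≤ ENNReal.ofReal c * ∑ i' ∈ Finset.Ioc r S.lf, (ENNReal.ofReal κ * (U0 + U1)) := by
        gcongr with i' hi'
        exact hb i' hi'
    _ = ENNReal.ofReal c * (((Finset.Ioc r S.lf).card : ℝ≥0∞)
        * (ENNReal.ofReal κ * (U0 + U1))) := by
        rw [Finset.sum_const, nsmul_eq_mul]
    _ ≤ ENNReal.ofReal c * (ENNReal.ofReal S.d * (ENNReal.ofReal κ * (U0 + U1))) := by gcongr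
    _ = _ := by
        rw [← mul_assoc, ← mul_assoc, ← ENNReal.ofReal_mul hc,
          ← ENNReal.ofReal_mul (by positivity)]

end Vale.Agent.P262.M1.Sys
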